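import Mathlib

/-!
# P219: the notions of the problem
`M` is a smooth Hausdorff manifold modelled on the finite-dimensional space `V`, and `g` is one of
Mathlib's `C^∞` Riemannian metrics on `M`.
-/

open scoped Manifold ContDiff ENNReal
open Set MeasureTheory Bundle VectorField

noncomputable section

namespace Vale.Agent.N219D

/-- Euclidean space `ℝⁿ`. -/
abbrev E (n : ℕ) : Type := EuclideanSpace ℝ (Fin n)

/-- `ω_n`, the volume of the unit ball of `ℝⁿ`. -/
def unitVol (n : ℕ) : ℝ := (volume (Metric.ball (0 : E n) 1)).toReal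

/-- `sn_b (r)`. -/
def sn (b r : ℝ) : ℝ := if b = 0 then r else Real.sinh (b * r) / b

/-- `A_κ (r)`. -/
def modelArea (n : ℕ) (κ r : ℝ) : ℝ := n * unitVol n * sn √(-κ) r ^ (n - 1)

/-- `V_κ (r)`. -/
def modelVol (n : ℕ) (κ r : ℝ) : ℝ := n * unitVol n * ∫ t in (0 : ℝ)..r, sn √(-κ) t ^ (n - 1)

/-- `I_κ (v) = A_κ (V_κ⁻¹ (v))`, for a finite volume `v`. -/
def profile (n : ℕ) (κ : ℝ) (v : ℝ≥0∞) : ℝ≥0∞ :=
  ENNReal.ofReal (modelArea n κ (Function.invFunOn (modelVol n κ) (Ici 0) v.toReal))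

variable (V : Type) [NormedAddCommGroup V] [NormedSpace ℝ V] [FiniteDimensional ℝ V]
  (M : Type) [TopologicalSpace M] [ChartedSpace V M]

variable {M} in
/-- The tangent space at `x`. -/
abbrev Tan (x : M) : Type := TangentSpace 𝓘(ℝ, V) x

variable [IsManifold 𝓘(ℝ, V) ∞ M]

/-- Smooth Riemannian metrics. -/
abbrev RMetric : Type :=
  ContMDiffRiemannianMetric 𝓘(ℝ, V) ∞ V (fun x : M => TangentSpace 𝓘(ℝ, V) x)

/-- Connections on the tangent bundle: `D Y x v = ∇_v Y`. -/
abbrev Conn : Type := CovariantDerivative 𝓘(ℝ, V) V (Tan V : M → Type)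

variable {V M}

/-- `D` is the Levi-Civita connection of `g`: smooth, torsion free and compatible with `g`. -/
def IsLeviCivita (g : RMetric V M) (D : Conn V M) : Prop :=
  D.ContMDiffCovariantDerivative ∞ ∧ D.torsion = 0 ∧
    letI : RiemannianBundle (Tan V : M → Type) := ⟨g.toRiemannianMetric⟩
    CovariantDerivative.IsMetricCompatible (V := (Tan V : M → Type)) D

/-- The vector field `∇_X Y`. -/
def nab (D : Conn V M) (X Y : (x : M) → Tan V x) (x : M) : Tan V x := D Y x (X x)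

/-- `R` is the curvature tensor `R (X, Y) Z = ∇_X ∇_Y Z - ∇_Y ∇_X Z - ∇_[X,Y] Z` of `D`. -/
def IsCurv (D : Conn V M) (R : (x : M) → Tan V x → Tan V x → Tan V x → Tan V x) : Prop :=
  ∀ (X Y Z : Cₛ^∞⟮𝓘(ℝ, V); V, (Tan V : M → Type)⟯) (x : M), R x (X x) (Y x) (Z x) =
    nab D X (nab D Y Z) x - nab D Y (nab D X Z) x - nab D (mlieBracket 𝓘(ℝ, V) X Y) Z x

/-- The inner product of two tangent vectors at `x`. -/
def ip (g : RMetric V M) (x : M) (v w : Tan V x) : ℝ := g.inner x v w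

/-- The sectional curvatures `g (R (v, w) w, v) / (|v|² |w|² - g (v, w)²)` of all tangent planes
lie in the set `S`. -/
def SecIn (g : RMetric V M) (S : Set ℝ) : Prop :=
  ∃ D R, IsLeviCivita g D ∧ IsCurv D R ∧ ∀ (x : M) (v w : Tan V x), LinearIndependent ℝ ![v, w] →
    ip g x (R x v w w) v / (ip g x v v * ip g x w w - ip g x v w ^ 2) ∈ S

variable [LocallyCompactSpace V] [T2Space M]

/-- `M` with the Riemannian distance of `g`, the infimum of the lengths of the `C¹` paths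
(Mathlib's construction; it induces the topology of `M`). -/
abbrev riemSpace (g : RMetric V M) : EMetricSpace M :=
  letI : RiemannianBundle (fun x : M => TangentSpace 𝓘(ℝ, V) x) :=
    ⟨g.toContinuousRiemannianMetric.toRiemannianMetric⟩
  haveI : LocallyCompactSpace M := ChartedSpace.locallyCompactSpace V M
  EMetricSpace.ofRiemannianMetric 𝓘(ℝ, V) M

/-- `(M, g)` is simply connected and complete, with sectional curvatures in `S`. -/
def IsSpace (g : RMetric V M) (S : Set ℝ) : Prop :=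
  SimplyConnectedSpace M ∧ (letI := riemSpace g; CompleteSpace M) ∧ SecIn g S

variable (V) in
/-- `V` carries a complete metric of constant curvature `κ`. -/
def HasModel (κ : ℝ) : Prop := ∃ h : RMetric V V, IsSpace h {κ}

/-- The geodesic ball of centre `o` and radius `r`. -/
def gball (g : RMetric V M) (o : M) (r : ℝ) : Set M :=
  {x | (riemSpace g).edist o x < ENNReal.ofReal r}

/-- Domains: bounded open sets with smooth boundary. Near each of its points `p`, the boundary is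
the zero set of a smooth function `f` with `df ≠ 0` at `p`. -/
def IsDomain (g : RMetric V M) (Ω : Set M) : Prop :=
  IsOpen Ω ∧ (∃ R : ℝ, ∀ x ∈ Ω, ∀ y ∈ Ω, (riemSpace g).edist x y ≤ ENNReal.ofReal R) ∧
    ∀ p ∈ frontier Ω, ∃ (U : Set M) (f : M → ℝ), IsOpen U ∧ p ∈ U ∧
      ContMDiffOn 𝓘(ℝ, V) 𝓘(ℝ, ℝ) ∞ f U ∧ frontier Ω ∩ U = {x ∈ U | f x = 0} ∧
      mfderiv 𝓘(ℝ, V) 𝓘(ℝ, ℝ) f p ≠ 0

variable {N : Type} [TopologicalSpace N] [ChartedSpace V N] [IsManifold 𝓘(ℝ, V) ∞ N] [T2Space N]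

/-- The subset `Ω` of `(M, g)` is isometric to the geodesic ball `B` of centre `o` and radius `r`
of `(N, h)`: there is a diffeomorphism `φ : B → Ω` with `φ^* g = h`. -/
def IsoBall (h : RMetric V N) (o : N) (r : ℝ) (g : RMetric V M) (Ω : Set M) : Prop :=
  ∃ (φ : N → M) (ψ : M → N), ContMDiffOn 𝓘(ℝ, V) 𝓘(ℝ, V) ∞ φ (gball h o r) ∧
    ContMDiffOn 𝓘(ℝ, V) 𝓘(ℝ, V) ∞ ψ Ω ∧ MapsTo φ (gball h o r) Ω ∧ MapsTo ψ Ω (gball h o r) ∧
    InvOn ψ φ (gball h o r) Ω ∧ ∀ y ∈ gball h o r, ∀ v w : Tan V y, ip g (φ y)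
      (mfderiv 𝓘(ℝ, V) 𝓘(ℝ, V) φ y v) (mfderiv 𝓘(ℝ, V) 𝓘(ℝ, V) φ y w) = ip h y v w

variable [MeasurableSpace M] [BorelSpace M]

/-- The `k`-dimensional Riemannian measure: the `k`-dimensional Hausdorff measure of the
Riemannian distance, normalized so that it is Lebesgue measure on `ℝᵏ`. The volume is `meas g n`
and the area is `meas g (n - 1)`. -/
def meas (g : RMetric V M) (k : ℕ) (S : Set M) : ℝ≥0∞ :=
  letI := riemSpace g
  Measure.euclideanHausdorffMeasure k S

end Vale.Agent.N219D
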