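import Vale.Agent.N219.Main

/-!
# P219: the equality case in the growth of neighbourhoods
-/

set_option linter.all false
set_option maxSynthPendingDepth 3

open MeasureTheory Set Filter Metric Matrix
open scoped ENNReal NNReal Topology RealInnerProductSpace Manifold ContDiff

noncomputable section

namespace Vale.Agent.N219

open Vale.Agent.P255 (RMetric)
open Vale.Agent.P219.Co
open Vale.Agent.P219.Co.Prof732
open Vale.Agent.P219.H381 (pb bv)
open Vale.Agent.P219H381
open Vale.Agent.P219W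

variable {n : ℕ}

theorem int_div (G : RiemMetric n) {X : E n → Fin n → ℝ} (hX : TestField G X) :
    Integrable (fun x => divg G X x * volDensity G x) (leb n) := by
  set Y : Fin n → E n → ℝ := fun j y => volDensity G y * X y j with hY
  have hY1 : ∀ j, ContDiff ℝ 1 (Y j) := fun j =>
    ((volDensity_contDiff G).of_le (by simp)).mul (ContDiff.of_le (hX.smooth j) (by simp))
  have hYc : ∀ j, HasCompactSupport (Y j) := fun j => HasCompactSupport.intro hX.compact
    fun x hx => by simp only [hY, image_eq_zero_of_notMem_tsupport hx, Pi.zero_apply, mul_zero]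
  have e : (fun x => divg G X x * volDensity G x) = fun x => ∑ j, fderiv ℝ (Y j) x (bv j) := by
    funext x
    unfold divg
    rw [mul_comm, ← mul_assoc, mul_inv_cancel₀ (volDensity_pos G x).ne', one_mul]
    exact Finset.sum_congr rfl fun j _ =>
      Vale.Agent.P219.H381.pd_eq ((hY1 j).differentiable one_ne_zero x) j
  rw [e]
  exact integrable_finset_sum _ fun j _ => int_fd (hY1 j) (hYc j) _

theorem perim_union (G : RiemMetric n) {U : ℕ → Set (E n)} (hm : ∀ k, MeasurableSet (U k))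
    (hU : Monotone U) {A : ℝ≥0∞} (h : ∀ k, perimeter G (U k) ≤ A) : perimeter G (⋃ k, U k) ≤ A := by
  refine iSup₂_le fun X hX => ?_
  have t := ENNReal.tendsto_ofReal
    (tendsto_setIntegral_of_monotone hm hU (int_div G hX).integrableOn)
  refine le_of_tendsto' t fun k => le_trans ?_ (h k)
  exact le_iSup₂_of_le (f := fun X (_ : TestField G X) =>
    ENNReal.ofReal (∫ x in U k, divg G X x * volDensity G x ∂leb n)) X hX le_rfl

theorem exists_unit (hn : 1 ≤ n) (e : E n) : ∃ u : E n, ‖u‖ = 1 ∧ e = ‖e‖ • u := by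
  by_cases h0 : e = 0
  · refine ⟨EuclideanSpace.single ⟨0, hn⟩ 1, by simp, by simp [h0]⟩
  · have h1 : ‖e‖ ≠ 0 := norm_ne_zero_iff.2 h0
    refine ⟨‖e‖⁻¹ • e, ?_, ?_⟩
    · rw [norm_smul, norm_inv, norm_norm, inv_mul_cancel₀ h1]
    · rw [smul_smul, mul_inv_cancel₀ h1, one_smul]

variable {M : Type} [TopologicalSpace M] [T2Space M] [ChartedSpace (E n) M]
  [IsManifold 𝓘(ℝ, E n) ∞ M] {g : RMetric (E n) M} {κ : ℝ} {p : M}
  {Ψ : E n ≃ₘ^∞⟮𝓘(ℝ, E n), 𝓘(ℝ, E n)⟯ M}

theorem radial (h : IsNormal g p Ψ) {u : E n} (hu : ‖u‖ = 1) {a b : ℝ} (ha : 0 ≤ a) (hb : 0 < b) :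
    rdist g (Ψ (a • u)) (Ψ ((a + b) • u)) ≤ ENNReal.ofReal b := by
  refine rdist_segment g Ψ hb.le fun t ht => ?_
  have e1 : (a + b) • u - a • u = b • u := by rw [add_smul, add_sub_cancel_left]
  have e2 : a • u + t • b • u = (a + t * b) • u := by rw [add_smul, smul_smul]
  have p1 : 0 < a + t * b := by nlinarith [ht.1]
  rw [e1, e2]
  have h4 := h.gauss ((a + t * b) • u) (b • u)
  rw [map_smul (pb g Ψ ((a + t * b) • u)), inner_smul_left] at h4
  have h5 : pb g Ψ ((a + t * b) • u) u (b • u) = ⟪u, b • u⟫ := mul_left_cancel₀ p1.ne' h4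
  have h6 : pb g Ψ ((a + t * b) • u) (b • u) (b • u) =
      b * pb g Ψ ((a + t * b) • u) u (b • u) := by
    rw [map_smul (pb g Ψ ((a + t * b) • u))]
    rfl
  rw [h6, h5, inner_smul_right, real_inner_self_eq_norm_sq, hu]
  nlinarith

theorem center_le (hn : 1 ≤ n) (h : IsNormal g p Ψ) {S : Set M} {r s : ℝ} (hr : 0 ≤ r) (hs : 0 < s)
    (hsub : nb g S s ⊆ gball g p (r + s)) {t : ℝ} (ht : 0 ≤ t) : nb g S t ⊆ gball g p (r + t) := by
  rintro x ⟨y, hy, h1⟩
  have hsu : Function.Surjective Ψ := Ψ.surjective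
  obtain ⟨ξ, rfl⟩ := hsu y
  obtain ⟨u, hu, hξ⟩ := exists_unit hn ξ
  have h2 : ‖ξ‖ ≤ r := by
    by_contra h3
    push Not at h3
    set b := max (s / 2) (s - (‖ξ‖ - r)) with hb
    have b0 : 0 < b := lt_max_of_lt_left (half_pos hs)
    have b1 : b < s := max_lt (half_lt_self hs) (by linarith)
    have h4 := radial h hu (norm_nonneg ξ) b0
    rw [← hξ] at h4
    have h5 : rdist g p (Ψ ((‖ξ‖ + b) • u)) < ENNReal.ofReal (r + s) :=
      hsub ⟨_, hy, h4.trans_lt ((ENNReal.ofReal_lt_ofReal_iff hs).2 b1)⟩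
    rw [h.rdist_zero, ENNReal.ofReal_lt_ofReal_iff (by linarith), norm_smul, hu, mul_one,
      Real.norm_of_nonneg (by positivity)] at h5
    have := le_max_right (s / 2) (s - (‖ξ‖ - r))
    linarith
  refine (rdist_triangle g p (Ψ ξ) x).trans_lt ?_
  rw [h.rdist_zero, ENNReal.ofReal_add hr ht]
  exact ENNReal.add_lt_add_of_le_of_lt ENNReal.ofReal_ne_top (ENNReal.ofReal_le_ofReal h2) h1

theorem ball_sub_nb (hn : 1 ≤ n) (h : IsNormal g p Ψ) {ρ t : ℝ} (hρ : 0 < ρ) (ht : 0 < t) :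
    gball g p (ρ + t) ⊆ nb g (gball g p ρ) t := by
  intro x hx
  by_cases h0 : x ∈ gball g p ρ
  · exact ⟨x, h0, by rw [rdist_self]; exact ENNReal.ofReal_pos.2 ht⟩
  have hsu : Function.Surjective Ψ := Ψ.surjective
  obtain ⟨ξ, rfl⟩ := hsu x
  obtain ⟨u, hu, hξ⟩ := exists_unit hn ξ
  have h1 : rdist g p (Ψ ξ) < ENNReal.ofReal (ρ + t) := hx
  have h2 : ¬ rdist g p (Ψ ξ) < ENNReal.ofReal ρ := h0
  rw [h.rdist_zero, ENNReal.ofReal_lt_ofReal_iff (by linarith)] at h1
  rw [h.rdist_zero, ENNReal.ofReal_lt_ofReal_iff hρ, not_lt] at h2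
  obtain ⟨a, a1, a2⟩ := exists_between (max_lt hρ (show ‖ξ‖ - t < ρ by linarith))
  have a3 := (le_max_left _ _).trans_lt a1
  have a4 := (le_max_right _ _).trans_lt a1
  have h4 := radial h hu a3.le (show 0 < ‖ξ‖ - a by linarith)
  rw [add_sub_cancel, ← hξ] at h4
  refine ⟨Ψ (a • u), ?_, h4.trans_lt ((ENNReal.ofReal_lt_ofReal_iff ht).2 (by linarith))⟩
  change rdist g p (Ψ (a • u)) < ENNReal.ofReal ρ
  rwa [h.rdist_zero, ENNReal.ofReal_lt_ofReal_iff hρ, norm_smul, hu, mul_one,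
    Real.norm_of_nonneg a3.le]

theorem nb_closure (U : Set M) (t : ℝ) : nb g (closure U) t ⊆ nb g U t := by
  rintro x ⟨y, hy, h1⟩
  have ho : IsOpen {z | rdist g z x < ENNReal.ofReal t} := by
    letI := riemSpace g
    exact isOpen_lt (continuous_id.edist continuous_const) continuous_const
  obtain ⟨z, h2, h3⟩ := mem_closure_iff.1 hy _ ho h1
  exact ⟨z, h3, h2⟩

theorem nb_union (S : Set M) {t : ℝ} (ht : 0 < t) :
    nb g S t = ⋃ k : ℕ, nb g S (t - t / (k + 2)) := by
  refine subset_antisymm ?_ (iUnion_subset fun k y hy => ?_)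
  · rintro x ⟨y, hy, h1⟩
    have t1 : Tendsto (fun k : ℕ => ENNReal.ofReal (t - t / (k + 2))) atTop
        (𝓝 (ENNReal.ofReal (t - 0))) :=
      ENNReal.tendsto_ofReal (tendsto_const_nhds.sub (tendsto_const_nhds.div_atTop
        (tendsto_atTop_add_const_right _ _ tendsto_natCast_atTop_atTop)))
    rw [sub_zero] at t1
    obtain ⟨k, hk⟩ := (t1.eventually (lt_mem_nhds h1)).exists
    exact mem_iUnion.2 ⟨k, y, hy, hk⟩
  · obtain ⟨z, hz, h1⟩ := hy
    refine ⟨z, hz, h1.trans_le (ENNReal.ofReal_le_ofReal ?_)⟩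
    have : 0 < t / (k + 2) := by positivity
    linarith

variable [MeasurableSpace M] [BorelSpace M]

/-- the equality case in the growth of neighbourhoods -/
theorem growth_rigid [SimplyConnectedSpace M] (hn : 2 ≤ n) (hκ : κ ≤ 0)
    (hc : Vale.Agent.P219.Mfd.Complete g) (hs : Vale.Agent.P219.Mfd.SecLE g κ) {S : Set M}
    (hS : S.Nonempty) {r t : ℝ} (hr : 0 ≤ r) (ht : 0 < t)
    (hV : ENNReal.ofReal (modelVol n κ r) ≤ rmeas g n S) {N : Type} [TopologicalSpace N]
    [T2Space N] [ChartedSpace (E n) N] [IsManifold 𝓘(ℝ, E n) ∞ N] {h : RMetric (E n) N}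
    (hh : IsSpaceForm h κ) (o : N) :
    rmeas g n (nb g S t) = ENNReal.ofReal (modelVol n κ (r + t)) ↔
      ∃ p : M, nb g S t = gball g p (r + t) ∧
        Isometric h (gball h o (r + t)) g (gball g p (r + t)) := by
  have hn1 : 1 ≤ n := by omega
  refine ⟨fun he => ?_, fun ⟨p, h1, h2⟩ => by
    rw [h1]; exact (ball_iso hn hκ hc hs hh (by linarith) h2).1⟩
  have hN := exists_normal hκ hc hs
  have hN' : ∀ p, ∃ Ψ, Nice g p Ψ := fun p => (hN p).imp fun Ψ h => h.nice
  obtain ⟨Ψ⟩ := exists_chart hκ hc hs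
  have hfin : ∀ s ≤ t, rmeas g n (nb g S s) ≠ ⊤ := fun s hs' =>
    ne_top_of_le_ne_top (by rw [he]; exact ENNReal.ofReal_ne_top) (measure_mono (nb_mono S hs'))
  have k1 : ∀ s ∈ Ioo 0 t, rmeas g n (nb g S s) = ENNReal.ofReal (modelVol n κ (r + s)) := by
    intro s hs'
    refine le_antisymm ?_ (growth hn hκ hc hs hS hr hs'.1 hV)
    obtain ⟨q, hq, hqV⟩ := exists_radius (κ := κ) hn1 (hfin s hs'.2.le)
    have h1 := (growth hn hκ hc hs (hS.mono (subset_nb S hs'.1)) hq (sub_pos.2 hs'.2)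
      hqV.ge).trans (measure_mono (nb_nb S hs'.1.le (sub_pos.2 hs'.2).le))
    rw [add_sub_cancel, he, ENNReal.ofReal_le_ofReal_iff (vol_nonneg hn1 κ (by linarith))] at h1
    have h2 := ((vol_strictMono hn1 κ).le_iff_le (show 0 ≤ q + (t - s) by linarith [hs'.2])
      (show 0 ≤ r + t by linarith)).1 h1
    rw [hqV]
    exact ENNReal.ofReal_le_ofReal ((vol_strictMono hn1 κ).monotoneOn hq
      (show 0 ≤ r + s by linarith [hs'.1]) (by linarith))
  have k2 : ∀ s ∈ Ioo 0 t,
      perimeter (pl g Ψ) (Ψ ⁻¹' nb g S s) ≤ ENNReal.ofReal (modelArea n κ (r + s)) := by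
    intro s hs'
    by_contra h1
    push Not at h1
    obtain ⟨a, a0, a1, a2⟩ := ENNReal.lt_iff_exists_real_btwn.1 h1
    have hA := area_pos hn1 κ (show 0 < r + s by linarith [hs'.1])
    rw [ENNReal.ofReal_lt_ofReal_iff_of_nonneg hA.le] at a1
    have hU := nb_open (g := g) S s
    have h2 := perimeter_le_mink hN' Ψ hU.measurableSet (sub_pos.2 hs'.2)
      (ne_top_of_le_ne_top (hfin t le_rfl) (measure_mono
        ((nb_nb S hs'.1.le (sub_pos.2 hs'.2).le).trans (nb_mono S (by linarith))))) a0 a2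
    have h3 := (hasDerivAt_vol (n := n) κ (r + s)).tendsto_slope_zero_right.eventually
      (gt_mem_nhds a1)
    obtain ⟨x, x1, x2, x3⟩ := (h2.and (h3.and (Ioo_mem_nhdsGT (sub_pos.2 hs'.2)))).exists
    rw [smul_eq_mul, inv_mul_lt_iff₀ x3.1] at x2
    have h4 : rmeas g n (nb g (nb g S s) x \ nb g S s) ≤
        ENNReal.ofReal (modelVol n κ (r + s + x) - modelVol n κ (r + s)) := by
      refine (measure_mono (diff_subset_diff_left (nb_nb S hs'.1.le x3.1.le))).trans ?_
      rw [measure_diff (nb_mono S (by linarith [x3.1])) hU.measurableSet.nullMeasurableSet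
        (hfin s hs'.2.le), k1 s hs', k1 (s + x) ⟨by linarith [hs'.1, x3.1], by linarith [x3.2]⟩,
        ENNReal.ofReal_sub _ (vol_nonneg hn1 κ (by linarith [hs'.1])), add_assoc]
    have h5 := ENNReal.toReal_le_of_le_ofReal (by
      have := (vol_strictMono hn1 κ).monotoneOn (show 0 ≤ r + s by linarith [hs'.1])
        (show 0 ≤ r + s + x by linarith [hs'.1, x3.1]) (by linarith [x3.1])
      linarith) h4
    linarith
  have k3 : perimeter (pl g Ψ) (Ψ ⁻¹' nb g S t) ≤ ENNReal.ofReal (modelArea n κ (r + t)) := by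
    have s1 : ∀ k : ℕ, t - t / (k + 2) ∈ Ioo 0 t := fun k => by
      have h1 : 0 < t / (k + 2) := by positivity
      have h2 : t / (k + 2) < t := div_lt_self ht (by have := k.cast_nonneg (α := ℝ); linarith)
      exact ⟨by linarith, by linarith⟩
    rw [nb_union S ht, preimage_iUnion]
    refine perim_union _ (fun k => measurable_Psi Ψ (nb_open S _).measurableSet)
      (fun k l hkl => preimage_mono (nb_mono S ?_)) fun k => (k2 _ (s1 k)).trans
        (ENNReal.ofReal_le_ofReal (area_mono κ (show 0 ≤ r + _ by linarith [(s1 k).1])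
          (show 0 ≤ r + t by linarith) (by linarith [(s1 k).2])))
    have : (k : ℝ) ≤ l := by exact_mod_cast hkl
    gcongr
  have s2 : t / 2 ∈ Ioo 0 t := ⟨half_pos ht, half_lt_self ht⟩
  obtain ⟨b1, b2⟩ := perim_ge hn hκ hc hs Ψ (nb_open S (t / 2)).measurableSet
    (show 0 ≤ r + t / 2 by linarith) (k1 _ s2)
  obtain ⟨q, -, q1, q2⟩ := b2 (nb_open S _) (le_antisymm (k2 _ s2) b1) N h hh o
  obtain ⟨Φ, hΦ⟩ := hN q
  have k4 : nb g S t = gball g q (r + t) := by
    refine subset_antisymm (center_le hn1 hΦ hr s2.1 q1 ht.le) ?_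
    have h1 := ball_sub_nb hn1 hΦ (show 0 < r + t / 2 by linarith) s2.1
    rw [add_assoc, add_halves] at h1
    refine h1.trans (Subset.trans ?_ ((nb_closure _ _).trans
      ((nb_nb S s2.1.le s2.1.le).trans (nb_mono S (by linarith)))))
    rintro x ⟨y, hy, h2⟩
    exact ⟨y, q2 hy, h2⟩
  obtain ⟨c1, c2⟩ := perim_ge hn hκ hc hs Ψ (nb_open S t).measurableSet
    (show 0 ≤ r + t by linarith) he
  obtain ⟨p, p1, p2, p3⟩ := c2 (nb_open S _) (le_antisymm k3 c1) N h hh o
  refine ⟨p, subset_antisymm p2 ?_, p1⟩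
  rw [k4] at p3 ⊢
  rw [← (ball_row g hN q (r + t)).2.1]
  exact interior_maximal p3 (ball_row g hN p (r + t)).1.isOpen

end Vale.Agent.N219
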