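import Vale.Agent.N219.Defs
import Vale.Agent.N219.Rigid
import Vale.Agent.P219I78.Main

/-!
# P219: the results in terms of the definitions of `N219/Defs`
-/

set_option linter.all false

open scoped Manifold ContDiff ENNReal
open MeasureTheory Set

namespace Vale.Agent.N219D

theorem omega_eq (n : ℕ) : unitVol n = P219.Co.omega n := by
  have h : {x : E n | ∑ i, x i ^ 2 < 1} = Metric.ball 0 1 := by
    ext x
    rw [mem_ball_zero_iff, mem_setOf_eq, EuclideanSpace.norm_eq,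
      Real.sqrt_lt' one_pos, one_pow]
    simp
  unfold unitVol P219.Co.omega P219.Co.leb
  rw [← h]

theorem area_eq : modelArea = P219.Co.modelArea := by
  funext n κ r
  unfold modelArea P219.Co.modelArea
  rw [omega_eq]
  rfl

theorem vol_eq : modelVol = P219.Co.modelVol := by
  funext n κ r
  unfold modelVol P219.Co.modelVol
  rw [omega_eq]
  rfl

theorem prof {n : ℕ} (hn : 1 ≤ n) (κ : ℝ) {r : ℝ} (hr : 0 ≤ r) :
    profile n κ (ENNReal.ofReal (P219.Co.modelVol n κ r)) =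
      ENNReal.ofReal (P219.Co.modelArea n κ r) := by
  unfold profile
  rw [ENNReal.toReal_ofReal (P219.Co.Prof732.vol_nonneg hn κ hr), area_eq, vol_eq]
  exact congrArg _ (P219W.profile_vol hn κ hr)

variable {n : ℕ} {M : Type} [TopologicalSpace M] [ChartedSpace (E n) M]
  [IsManifold 𝓘(ℝ, E n) ∞ M]

theorem secIn_iff {g : RMetric (E n) M} {S : Set ℝ} : SecIn g S ↔ P219I.SecIn g S :=
  ⟨fun ⟨D, R, h1, h2, h3⟩ => ⟨R, ⟨D, ⟨h1.1, h1.2.1, h1.2.2⟩, h2⟩, h3⟩,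
    fun ⟨R, ⟨D, h1, h2⟩, h3⟩ => ⟨D, R, ⟨h1.1, h1.2, h1.3⟩, h2, h3⟩⟩

theorem sanity (hn : 1 ≤ n) {κ : ℝ} (hκ : κ ≤ 0) : BijOn (modelVol n κ) (Ici 0) (Ici 0) ∧
    HasModel (E n) κ := by
  rw [vol_eq]
  obtain ⟨h, h1, h2, h3⟩ := P219W.model_spaceForm (n := n) hκ (P219W13.mod_ hκ)
  exact ⟨P219W.vol_bijOn hn κ, h, h1, h2, secIn_iff.2 (P219I.secEq_iff.2 h3)⟩

variable [T2Space M] [MeasurableSpace M] [BorelSpace M] {g : RMetric (E n) M} {κ : ℝ}
  {N : Type} [TopologicalSpace N] [T2Space N] [ChartedSpace (E n) N] [IsManifold 𝓘(ℝ, E n) ∞ N]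
  {h : RMetric (E n) N}

omit [MeasurableSpace M] [BorelSpace M] in
theorem nb_eq (S : Set M) (t : ℝ) : ⋃ y ∈ S, gball g y t = N219.nb g S t := by
  ext x
  simp only [mem_iUnion, exists_prop]
  rfl

theorem main (hn : 2 ≤ n) (hκ : κ ≤ 0) (hM : IsSpace g (Iic κ)) (o : N) (hN' : IsSpace h {κ}) :
    (∀ Ω : Set M, IsDomain g Ω → meas g n Ω ≠ ⊤ ∧
      profile n κ (meas g n Ω) ≤ meas g (n - 1) (frontier Ω) ∧
      (meas g (n - 1) (frontier Ω) = profile n κ (meas g n Ω) ↔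
        ∃ r : ℝ, 0 ≤ r ∧ IsoBall h o r g Ω)) ∧
    (∀ S : Set M, meas g n S ≠ ⊤ → profile n κ (meas g n S) ≤ meas g (n - 1) (frontier S) ∧
      (meas g (n - 1) (frontier S) = profile n κ (meas g n S) ↔
        ∃ (p : M) (r : ℝ), 0 ≤ r ∧ IsoBall h o r g (gball g p r) ∧
          meas g (n - 1) (closure S \ closure (gball g p r)) = 0 ∧
          meas g (n - 1) (gball g p r \ interior S) = 0)) ∧
    ∀ (S : Set M) (r t : ℝ), S.Nonempty → 0 ≤ r → 0 < t →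
      ENNReal.ofReal (modelVol n κ r) ≤ meas g n S →
      ENNReal.ofReal (modelVol n κ (r + t)) ≤ meas g n (⋃ y ∈ S, gball g y t) ∧
      (meas g n (⋃ y ∈ S, gball g y t) = ENNReal.ofReal (modelVol n κ (r + t)) ↔
        ∃ p : M, ⋃ y ∈ S, gball g y t = gball g p (r + t) ∧
          IsoBall h o (r + t) g (gball g p (r + t))) := by
  have hn1 : 1 ≤ n := by omega
  obtain ⟨hsc, hc', hs'⟩ := hM
  obtain ⟨k1, k2, k3⟩ := hN'
  have hc := P219W.complete_of (g := g) (Or.inl hc')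
  have hs := P219I.secLE_iff.1 (secIn_iff.1 hs')
  have hN : P219W.IsSpaceForm h κ := ⟨k1, k2, P219I.secEq_iff.1 (secIn_iff.1 k3)⟩
  refine ⟨fun Ω hΩ => ?_, fun S hS => ?_, fun S r t hS hr ht hV => ?_⟩
  · obtain ⟨r, hr, h1, h2, h3⟩ := P219W.rigid hn hκ hc hs P219W42.two1 (P219W21.two2 g)
      (P219W.ball_row g) (Ω := Ω) ⟨hΩ.1, hΩ.2.1, hΩ.2.2⟩
    have h1' : meas g n Ω = ENNReal.ofReal (P219.Co.modelVol n κ r) := h1
    obtain ⟨h5, h6⟩ := h3 N h (P219W88.two3 h g) hN o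
    rw [h1', prof hn1 κ hr]
    exact ⟨ENNReal.ofReal_ne_top, h2, fun h7 => ⟨r, hr, h5 h7⟩,
      fun ⟨r', hr', h7⟩ => (h6 r' hr' h7).2⟩
  · obtain ⟨r, hr, h1⟩ := N219.exists_radius (κ := κ) hn1 hS
    rw [h1, prof hn1 κ hr]
    exact ⟨N219.any_ineq hn hκ hc hs hr h1, N219.any_rigid hn hκ hc hs hr h1 hN o⟩
  · rw [vol_eq] at hV ⊢
    rw [nb_eq]
    exact ⟨N219.growth hn hκ hc hs hS hr ht hV, N219.growth_rigid hn hκ hc hs hS hr ht hV hN o⟩

end Vale.Agent.N219D
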