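import Vale.Agent.N219.Sweep

/-!
# P219: directional derivatives over a set are bounded by the measure of its frontier; gluing
-/

set_option linter.all false

open MeasureTheory Set Filter Metric
open scoped ENNReal NNReal Topology RealInnerProductSpace Manifold ContDiff

noncomputable section

namespace Vale.Agent.N219

open Vale.Agent.P219.Co (E)

variable {n : ℕ}

theorem gain_front {S : Set (E n)} {e x : E n} {k : ℝ} (hk : 0 ≤ k) (hx : x ∈ gain S (k • e)) :
    ∃ s ∈ Icc (0 : ℝ) k, x - s • e ∈ frontier S := by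
  by_contra hcon
  push Not at hcon
  have hp : IsPreconnected ((fun s : ℝ => x - s • e) '' Icc 0 k) :=
    isPreconnected_Icc.image _ (by fun_prop)
  have hsub : (fun s : ℝ => x - s • e) '' Icc 0 k ⊆ interior S ∪ interior Sᶜ := by
    rintro _ ⟨s, hs, rfl⟩
    have h1 := hcon s hs
    rw [frontier, mem_diff, not_and, not_not] at h1
    by_cases h2 : x - s • e ∈ closure S
    · exact Or.inl (h1 h2)
    · right
      rw [interior_compl]
      exact h2
  have hd : Disjoint (interior S) (interior Sᶜ) :=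
    disjoint_compl_right.mono interior_subset interior_subset
  rcases hp.subset_or_subset isOpen_interior isOpen_interior hd hsub with h | h
  · exact hx.2 (interior_subset (h ⟨0, ⟨le_rfl, hk⟩, by simp⟩))
  · exact interior_subset (h ⟨k, ⟨hk, le_rfl⟩, rfl⟩) hx.1

theorem dir_front {S : Set (E n)} (hS : MeasurableSet S) {w : E n → ℝ} (hw : ContDiff ℝ 1 w)
    (hc : HasCompactSupport w) (h0 : ∀ x, 0 ≤ w x) {W : Set (E n)} (hW : IsOpen W)
    (hsupp : tsupport w ⊆ W) (τ : Measure (E n)) [IsFiniteMeasure τ] {e : E n} {a : ℝ}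
    (ha : 0 ≤ a) (hsw : ∀ A ⊆ W ∩ frontier S, ∀ h : ℝ, 0 < h →
      volume (sw A e h) ≤ ENNReal.ofReal (h * a) * τ A) :
    dir S w e ≤ a * ∫ x, w x ∂τ := by
  obtain ⟨C, hf⟩ := hw.lipschitzWith_of_hasCompactSupport hc one_ne_zero
  obtain ⟨δ, hδ, hδW⟩ := hc.isCompact.exists_cthickening_subset_open hW hsupp
  have i1 : Integrable w := hw.continuous.integrable_of_hasCompactSupport hc
  have i2 : Integrable w τ := hw.continuous.integrable_of_hasCompactSupport hc
  have key : ∀ k : ℝ, 0 < k → k * ‖e‖ ≤ δ → ∫ x in gain S (k • e), w x ≤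
      k * a * ((∫ x, w x ∂τ) + C * (k * ‖e‖) * τ.real univ) := by
    intro k hk hkδ
    set m : ℝ := C * (k * ‖e‖) with hm
    have hm0 : 0 ≤ m := by positivity
    have i3 : Integrable (fun x => w x + m) τ := i2.add (integrable_const _)
    have e1 : (∫ x, w x ∂τ) + m * τ.real univ = ∫ x, (w x + m) ∂τ := by
      rw [integral_add i2 (integrable_const _), integral_const, smul_eq_mul, mul_comm]
    have p1 : ∀ x, 0 ≤ w x + m := fun x => add_nonneg (h0 x) hm0
    rw [e1, ← ENNReal.ofReal_le_ofReal_iff (mul_nonneg (by positivity) (integral_nonneg p1)),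
      ENNReal.ofReal_mul (by positivity),
      ofReal_integral_eq_lintegral_ofReal i1.integrableOn (Eventually.of_forall h0),
      ofReal_integral_eq_lintegral_ofReal i3 (Eventually.of_forall p1),
      lintegral_eq_lintegral_meas_lt _ (Eventually.of_forall h0)
        hw.continuous.measurable.aemeasurable,
      lintegral_eq_lintegral_meas_lt _ (Eventually.of_forall p1) i3.aemeasurable,
      ← lintegral_const_mul' _ _ ENNReal.ofReal_ne_top]
    refine setLIntegral_mono' measurableSet_Ioi fun t ht => ?_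
    have ht0 : 0 < t := ht
    rw [Measure.restrict_apply' (gain_meas hS _)]
    refine le_trans (measure_mono ?_) ((hsw (W ∩ frontier S ∩ {a | t < w a + m})
      inter_subset_left k hk).trans (mul_le_mul_right (measure_mono inter_subset_right) _))
    rintro x ⟨hx1, hx2⟩
    obtain ⟨s, hs, hs1⟩ := gain_front hk.le hx2
    have hx1' : t < w x := hx1
    have hd : dist (x - s • e) x ≤ k * ‖e‖ := by
      rw [dist_eq_norm, sub_sub_cancel_left, norm_neg, norm_smul, Real.norm_of_nonneg hs.1]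
      exact mul_le_mul_of_nonneg_right hs.2 (norm_nonneg _)
    refine ⟨x - s • e, ⟨⟨hδW ?_, hs1⟩, ?_⟩, s, hs, by simp⟩
    · exact mem_cthickening_of_dist_le _ x δ _ (subset_tsupport _ (ht0.trans hx1').ne')
        (hd.trans hkδ)
    · have h2 := hf.dist_le_mul (x - s • e) x
      have h3 := mul_le_mul_of_nonneg_left hd C.coe_nonneg
      rw [Real.dist_eq] at h2
      have h4 := (abs_le.1 (h2.trans h3)).1
      simp only [mem_setOf_eq]
      linarith
  refine le_of_forall_pos_le_add fun ε hε => ?_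
  have t1 : Tendsto (fun k : ℝ => a * (C * (k * ‖e‖) * τ.real univ)) (𝓝[>] 0) (𝓝 0) := by
    have : Continuous fun k : ℝ => a * (C * (k * ‖e‖) * τ.real univ) := by fun_prop
    simpa using (this.tendsto 0).mono_left nhdsWithin_le_nhds
  have t2 : Tendsto (fun k : ℝ => k * ‖e‖) (𝓝[>] 0) (𝓝 0) := by
    have : Continuous fun k : ℝ => k * ‖e‖ := by fun_prop
    simpa using (this.tendsto 0).mono_left nhdsWithin_le_nhds
  obtain ⟨k, h1, h2, h3, h4⟩ := ((dir_le hS hw hc h0 e (half_pos hε)).and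
    ((t1.eventually (gt_mem_nhds (half_pos hε))).and
      ((t2.eventually (gt_mem_nhds hδ)).and self_mem_nhdsWithin))).exists
  have hk : 0 < k := h4
  have h5 := mul_le_mul_of_nonneg_left (key k hk h3.le) (inv_pos.2 hk).le
  rw [mul_assoc k, ← mul_assoc, inv_mul_cancel₀ hk.ne', one_mul, mul_add] at h5
  linarith

theorem int_fd {w : E n → ℝ} (hw : ContDiff ℝ 1 w) (hc : HasCompactSupport w) (e : E n) :
    Integrable fun x => fderiv ℝ w x e :=
  ((hw.continuous_fderiv one_ne_zero).clm_apply continuous_const).integrable_of_hasCompactSupport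
    (hc.fderiv_apply ℝ e)

theorem dir_sum {ι : Type*} (S : Set (E n)) (s : Finset ι) {w : ι → E n → ℝ}
    (hw : ∀ i, ContDiff ℝ 1 (w i)) (hc : ∀ i, HasCompactSupport (w i)) (e : E n) :
    dir S (fun x => ∑ i ∈ s, w i x) e = ∑ i ∈ s, dir S (w i) e := by
  unfold dir
  rw [← integral_finset_sum _ fun i _ => (int_fd (hw i) (hc i) e).integrableOn]
  congr 1
  funext x
  rw [fderiv_fun_sum fun i _ => (hw i).differentiable one_ne_zero x]
  simp

theorem dir_vec {ι : Type*} (S : Set (E n)) (s : Finset ι) {w : E n → ℝ} (hw : ContDiff ℝ 1 w)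
    (hc : HasCompactSupport w) (c : ι → ℝ) (b : ι → E n) :
    dir S w (∑ i ∈ s, c i • b i) = ∑ i ∈ s, c i * dir S w (b i) := by
  unfold dir
  simp only [← integral_const_mul]
  rw [← integral_finset_sum _ fun i _ => ((int_fd hw hc (b i)).integrableOn).const_mul _]
  congr 1
  funext x
  simp

theorem dir_split (S : Set (E n)) {φ y : E n → ℝ} (hφ : ContDiff ℝ 1 φ)
    (hc : HasCompactSupport φ) (hy : ContDiff ℝ 1 y) (c η : ℝ) (b : E n) :
    dir S (fun x => φ x * y x) b = dir S (fun x => φ x * (y x - c + η)) b + c * dir S φ b +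
      dir S (fun x => φ x * η) (-b) := by
  have h1 : ContDiff ℝ 1 fun x => φ x * (y x - c + η) := by fun_prop
  have h2 : ContDiff ℝ 1 fun x => φ x * η := by fun_prop
  have c1 : HasCompactSupport fun x => φ x * (y x - c + η) := hc.mul_right
  have c2 : HasCompactSupport fun x => φ x * η := hc.mul_right
  unfold dir
  have i3 : Integrable (fun x => fderiv ℝ (fun x => φ x * (y x - c + η)) x b +
      c * fderiv ℝ φ x b) (volume.restrict S) :=
    (int_fd h1 c1 b).integrableOn.add ((int_fd hφ hc b).integrableOn.const_mul _)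
  rw [← integral_const_mul, ← integral_add (int_fd h1 c1 b).integrableOn
    ((int_fd hφ hc b).integrableOn.const_mul _), ← integral_add i3 (int_fd h2 c2 _).integrableOn]
  congr 1
  funext x
  have d1 := (hφ.differentiable one_ne_zero x).hasFDerivAt
  have d2 := (hy.differentiable one_ne_zero x).hasFDerivAt
  have e1 := (d1.fun_mul d2).fderiv
  have e2 := (d1.fun_mul ((d2.sub_const c).add_const η)).fderiv
  have e3 := (d1.mul_const η).fderiv
  rw [e1, e2, e3]
  simp
  ring

/-- local bounds for the directional derivatives, along the filter `l` -/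
def Loc {ι : Type} (l : Filter ι) (τ : ι → Measure (E n)) (S W : Set (E n)) (e : E n) (a : ℝ) :
    Prop :=
  ∀ w : E n → ℝ, ContDiff ℝ 1 w → HasCompactSupport w → (∀ x, 0 ≤ w x) → tsupport w ⊆ W →
    ∀ ε : ℝ, 0 < ε → ∀ᶠ i in l, dir S w e ≤ a * (∫ x, w x ∂τ i) + ε

theorem glue {ι : Type} {l : Filter ι} {τ : ι → Measure (E n)}
    (hfin : ∀ᶠ i in l, IsFiniteMeasure (τ i)) {S : Set (E n)} (b : Fin n → E n)
    {Y : Fin n → E n → ℝ} (hY : ∀ j, ContDiff ℝ 1 (Y j)) {K : Set (E n)} (hK : IsCompact K)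
    (hYK : ∀ j, ∀ x ∉ K, Y j x = 0) {c : ℝ} (hc : 0 ≤ c)
    (hloc : ∀ x₀ : E n, ∃ W ∈ 𝓝 x₀, ∃ β : ℝ, 0 ≤ β ∧ Loc l τ S W (∑ j, Y j x₀ • b j) c ∧
      ∀ j, Loc l τ S W (b j) β ∧ Loc l τ S W (-b j) β) {ε : ℝ} (hε : 0 < ε) :
    ∀ᶠ i in l, ∑ j, dir S (Y j) (b j) ≤ (c + ε) * (τ i).real univ + ε := by
  choose W hW β hβ h1 h2 using hloc
  set η : E n → ℝ := fun x₀ => ε / (3 * n * β x₀ + 1) with hη
  have hη0 : ∀ x₀, 0 < η x₀ := fun x₀ => div_pos hε (by have := hβ x₀; positivity)
  have hη1 : ∀ x₀, n * (3 * β x₀ * η x₀) ≤ ε := fun x₀ => by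
    have := hβ x₀
    have h3 : η x₀ * (3 * n * β x₀ + 1) = ε := div_mul_cancel₀ _ (by positivity)
    nlinarith [hη0 x₀]
  set U : E n → Set (E n) := fun x₀ =>
    interior (W x₀) ∩ ball x₀ 1 ∩ ⋂ j, {x | |Y j x - Y j x₀| < η x₀} with hU
  have hUo : ∀ x₀, IsOpen (U x₀) := fun x₀ =>
    (isOpen_interior.inter isOpen_ball).inter (isOpen_iInter_of_finite fun j =>
      isOpen_lt (by have := (hY j).continuous; fun_prop) continuous_const)
  have hUm : ∀ x₀, x₀ ∈ U x₀ := fun x₀ =>
    ⟨⟨mem_interior_iff_mem_nhds.2 (hW x₀), mem_ball_self one_pos⟩,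
      mem_iInter.2 fun j => by simpa using hη0 x₀⟩
  obtain ⟨t, ht⟩ := hK.elim_finite_subcover U hUo fun x _ => mem_iUnion.2 ⟨x, hUm x⟩
  obtain ⟨f, hf⟩ := SmoothPartitionOfUnity.exists_isSubordinate 𝓘(ℝ, E n) hK.isClosed
    (fun p : t => U p) (fun p => hUo p) (by
      intro x hx
      obtain ⟨p, hp, hx'⟩ := mem_iUnion₂.1 (ht hx)
      exact mem_iUnion.2 ⟨⟨p, hp⟩, hx'⟩)
  have f1 : ∀ p, ContDiff ℝ 1 (f p) := fun p => (f p).contMDiff.contDiff.of_le (by simp)
  have f2 : ∀ p, HasCompactSupport (f p) := fun p =>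
    (isCompact_closedBall (p : E n) 1).of_isClosed_subset (isClosed_tsupport _)
      fun x hx => ball_subset_closedBall (hf p hx).1.2
  have f3 : ∀ p, tsupport (f p) ⊆ W p := fun p x hx => interior_subset (hf p hx).1.1
  have f4 : ∀ p j x, 0 ≤ f p x * (Y j x - Y j p + η p) ∧
      f p x * (Y j x - Y j p + η p) ≤ f p x * (2 * η p) := by
    intro p j x
    by_cases hx : f p x = 0
    · simp [hx]
    · have h4 : |Y j x - Y j p| < η p := mem_iInter.1 (hf p (subset_tsupport _ hx)).2 j
      have h3 := abs_lt.1 h4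
      exact ⟨mul_nonneg (f.nonneg p x) (by linarith [h3.1]),
        mul_le_mul_of_nonneg_left (by linarith [h3.2]) (f.nonneg p x)⟩
  set ε' : ℝ := ε / ((Fintype.card t : ℝ) * (2 * n + 1) + 1) with hε'
  have hε'0 : 0 < ε' := div_pos hε (by positivity)
  have hε'1 : (Fintype.card t : ℝ) * ((2 * n + 1) * ε') ≤ ε := by
    have h3 : ε' * ((Fintype.card t : ℝ) * (2 * n + 1) + 1) = ε := div_mul_cancel₀ _ (by positivity)
    nlinarith
  have e1 : ∀ j, dir S (Y j) (b j) = ∑ p : t, dir S (fun x => f p x * Y j x) (b j) := by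
    intro j
    rw [← dir_sum S Finset.univ (fun p => (f1 p).mul (hY j)) (fun p => (f2 p).mul_right)]
    congr 1
    funext x
    rw [← Finset.sum_mul]
    by_cases hx : x ∈ K
    · rw [← finsum_eq_sum_of_fintype, f.sum_eq_one hx, one_mul]
    · rw [hYK j x hx, mul_zero]
  have k1 : ∀ᶠ i in l, ∀ p : t, dir S (f p) (∑ j, Y j p • b j) ≤ c * (∫ x, f p x ∂τ i) + ε' :=
    eventually_all.2 fun p => h1 p _ (f1 p) (f2 p) (f.nonneg p) (f3 p) _ hε'0
  have k2 : ∀ᶠ i in l, ∀ p : t, ∀ j, dir S (fun x => f p x * (Y j x - Y j p + η p)) (b j) ≤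
      β p * (∫ x, f p x * (Y j x - Y j p + η p) ∂τ i) + ε' :=
    eventually_all.2 fun p => eventually_all.2 fun j => (h2 p j).1 (fun x => f p x * (Y j x - Y j p + η p))
      (by have := f1 p; have := hY j; fun_prop) (f2 p).mul_right (fun x => (f4 p j x).1)
      ((tsupport_mul_subset_left).trans (f3 p)) _ hε'0
  have k3 : ∀ᶠ i in l, ∀ p : t, ∀ j, dir S (fun x => f p x * η p) (-b j) ≤
      β p * (∫ x, f p x * η p ∂τ i) + ε' :=
    eventually_all.2 fun p => eventually_all.2 fun j => (h2 p j).2 (fun x => f p x * η p)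
      (by have := f1 p; fun_prop) (f2 p).mul_right
      (fun x => mul_nonneg (f.nonneg p x) (hη0 p).le)
      ((tsupport_mul_subset_left).trans (f3 p)) _ hε'0
  filter_upwards [hfin, k1, k2, k3] with i hi k1 k2 k3
  have i1 : ∀ p, Integrable (f p) (τ i) := fun p =>
    (f1 p).continuous.integrable_of_hasCompactSupport (f2 p)
  have k4 : ∀ p : t, ∑ j, dir S (fun x => f p x * Y j x) (b j) ≤
      (c + ε) * (∫ x, f p x ∂τ i) + (2 * n + 1) * ε' := by
    intro p
    have p0 : 0 ≤ ∫ x, f p x ∂τ i := integral_nonneg (f.nonneg p)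
    have k5 : ∀ j, dir S (fun x => f p x * Y j x) (b j) ≤ Y j p * dir S (f p) (b j) +
        (3 * β p * η p * (∫ x, f p x ∂τ i) + 2 * ε') := by
      intro j
      rw [dir_split S (f1 p) (f2 p) (hY j) (Y j p) (η p)]
      have a1 := k2 p j
      have a2 := k3 p j
      have a3 : ∫ x, f p x * (Y j x - Y j p + η p) ∂τ i ≤ ∫ x, f p x * (2 * η p) ∂τ i :=
        integral_mono_of_nonneg (Eventually.of_forall fun x => (f4 p j x).1)
          ((i1 p).mul_const _) (Eventually.of_forall fun x => (f4 p j x).2)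
      rw [integral_mul_const] at a2 a3
      have a4 := mul_le_mul_of_nonneg_left a3 (hβ p)
      nlinarith
    refine (Finset.sum_le_sum fun j _ => k5 j).trans ?_
    rw [Finset.sum_add_distrib, ← dir_vec S Finset.univ (f1 p) (f2 p), Finset.sum_const,
      Finset.card_univ, Fintype.card_fin, nsmul_eq_mul]
    have a1 := k1 p
    have a2 := mul_le_mul_of_nonneg_right (hη1 p) p0
    nlinarith
  simp only [e1]
  rw [Finset.sum_comm]
  refine (Finset.sum_le_sum fun p _ => k4 p).trans ?_
  rw [Finset.sum_add_distrib, ← Finset.mul_sum, ← integral_finset_sum _ fun p _ => i1 p,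
    Finset.sum_const, Finset.card_univ, nsmul_eq_mul]
  have a1 : ∫ x, ∑ p : t, f p x ∂τ i ≤ (τ i).real univ := by
    have := integral_mono (integrable_finset_sum Finset.univ fun p _ => i1 p)
      (integrable_const (1 : ℝ)) fun x => (by
        have := f.sum_le_one x
        rwa [finsum_eq_sum_of_fintype] at this)
    simpa using this
  have a2 := mul_le_mul_of_nonneg_left a1 (add_nonneg hc hε.le)
  linarith

end Vale.Agent.N219
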