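import Vale.Agent.N219.Perim
import Vale.Agent.P219W.Ball
import Vale.Agent.P219W21.Two2
import Vale.Agent.P219W42.Two1
import Vale.Agent.P219W88.Two3

/-!
# P219: the isoperimetric inequality for arbitrary sets, and the growth of neighbourhoods
-/

set_option linter.all false
set_option maxSynthPendingDepth 3

open MeasureTheory Set Filter Metric Matrix
open scoped ENNReal NNReal Topology RealInnerProductSpace Manifold ContDiff

noncomputable section

namespace Vale.Agent.N219

open Vale.Agent.P255 (RMetric)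
open Vale.Agent.P219.Co (E modelVol modelArea riemVol leb perimeter isop_rigid riemVol_null)
open Vale.Agent.P219.Co.Prof732
open Vale.Agent.P219.Mfd (Complete SecLE)
open Vale.Agent.P219H381
open Vale.Agent.P219W

variable {n : ℕ} {M : Type} [TopologicalSpace M] [T2Space M] [ChartedSpace (E n) M]
  [IsManifold 𝓘(ℝ, E n) ∞ M] [MeasurableSpace M] [BorelSpace M] {g : RMetric (E n) M} {κ : ℝ}

theorem vol_zero_of_area (hn : 1 ≤ n) {Z : Set M} (h : rmeas g (n - 1) Z ≠ ⊤) :
    rmeas g n Z = 0 := by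
  letI := riemSpace g
  exact (Measure.euclideanHausdorffMeasure_zero_or_top (d₁ := n - 1) (d₂ := n) (by omega)
    Z).resolve_right h

theorem vol_interior (hn : 1 ≤ n) {S : Set M} (h : rmeas g (n - 1) (frontier S) ≠ ⊤) :
    rmeas g n (interior S) = rmeas g n S := by
  refine le_antisymm (measure_mono interior_subset) ?_
  calc rmeas g n S ≤ rmeas g n (interior S ∪ frontier S) := measure_mono fun x hx => by
        by_cases h1 : x ∈ interior S
        exacts [Or.inl h1, Or.inr ⟨subset_closure hx, h1⟩]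
    _ ≤ rmeas g n (interior S) + rmeas g n (frontier S) := measure_union_le _ _
    _ = rmeas g n (interior S) := by rw [vol_zero_of_area hn h, add_zero]

theorem radius_eq (hn : 1 ≤ n) {r r' : ℝ} (hr : 0 ≤ r) (hr' : 0 ≤ r')
    (h : ENNReal.ofReal (modelVol n κ r) = ENNReal.ofReal (modelVol n κ r')) : r = r' := by
  rw [ENNReal.ofReal_eq_ofReal_iff (vol_nonneg hn κ hr) (vol_nonneg hn κ hr')] at h
  exact (vol_strictMono hn κ).injOn hr hr' h

omit [T2Space M] [MeasurableSpace M] [BorelSpace M] in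
theorem open_sub (Ψ : E n ≃ₘ^∞⟮𝓘(ℝ, E n), 𝓘(ℝ, E n)⟯ M) {U B : Set M} (hU : IsOpen U)
    (h : leb n (Ψ ⁻¹' U \ Ψ ⁻¹' B) = 0) : U ⊆ closure B := by
  have h1 : IsOpen (Ψ ⁻¹' (U \ closure B)) := (hU.sdiff isClosed_closure).preimage Ψ.continuous
  have h2 : (volume : Measure (E n)) (Ψ ⁻¹' (U \ closure B)) = 0 :=
    measure_mono_null (t := Ψ ⁻¹' U \ Ψ ⁻¹' B)
      (fun x hx => ⟨hx.1, fun h3 => hx.2 (subset_closure h3)⟩) h
  rw [h1.measure_eq_zero_iff volume] at h2
  intro x hx
  by_contra h3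
  have hsu : Function.Surjective Ψ := Ψ.surjective
  obtain ⟨y, rfl⟩ := hsu x
  exact (eq_empty_iff_forall_notMem.1 h2) y ⟨hx, h3⟩

/-- the perimeter of measurable sets, with the equality case for open sets -/
theorem perim_ge [SimplyConnectedSpace M] (hn : 2 ≤ n) (hκ : κ ≤ 0) (hc : Complete g)
    (hs : SecLE g κ) (Ψ : E n ≃ₘ^∞⟮𝓘(ℝ, E n), 𝓘(ℝ, E n)⟯ M) {U : Set M} (hU : MeasurableSet U)
    {r : ℝ} (hr : 0 ≤ r) (hV : rmeas g n U = ENNReal.ofReal (modelVol n κ r)) :
    ENNReal.ofReal (modelArea n κ r) ≤ perimeter (pl g Ψ) (Ψ ⁻¹' U) ∧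
    (IsOpen U → perimeter (pl g Ψ) (Ψ ⁻¹' U) = ENNReal.ofReal (modelArea n κ r) →
      ∀ (N : Type) [TopologicalSpace N] [T2Space N] [ChartedSpace (E n) N]
        [IsManifold 𝓘(ℝ, E n) ∞ N] (h : RMetric (E n) N), IsSpaceForm h κ → ∀ o : N,
        ∃ p, Isometric h (gball h o r) g (gball g p r) ∧ U ⊆ gball g p r ∧
          gball g p r ⊆ closure U) := by
  have hN := exists_normal hκ hc hs
  have hN' : ∀ p, ∃ Ψ, Nice g p Ψ := fun p => (hN p).imp fun Ψ h => h.nice
  have hV' := hV
  rw [rmeas_vol hN' Ψ hU] at hV'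
  obtain ⟨r', hr', h1, h2, h3⟩ := isop_rigid hn hκ (pl g Ψ) (complete_pl hc Ψ) (secLE_pl hs Ψ)
    (measurable_Psi Ψ hU) (by rw [hV']; exact ENNReal.ofReal_ne_top)
  obtain rfl : r = r' := radius_eq (by omega) hr hr' (hV'.symm.trans h1)
  refine ⟨h2, fun hUo he N _ _ _ _ h hh o => ?_⟩
  obtain ⟨D, hD1, hD2⟩ := h3.1 he
  have hin : Function.Injective Ψ := Ψ.injective
  have hD : D.carrier = Ψ ⁻¹' (Ψ '' D.carrier) := (hin.preimage_image _).symm
  obtain ⟨Θ, hΘ, hb⟩ := exists_theta hκ Vale.Agent.P219W78.cc (Vale.Agent.P219W13.mod_ hκ)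
    (Vale.Agent.P219W88.hr h) hh o
  have hi : Isometric h (gball h o r) g (Ψ '' D.carrier) := by
    rw [hb r hr]
    exact (Vale.Agent.P219W42.iso_iff g h Ψ Θ hκ hΘ _ r).1 (isometric_of_pl g Ψ hD hD2)
  have hDo : IsOpen (Ψ '' D.carrier) := Ψ.toHomeomorph.isOpenMap _
    (isOpen_lt (ContDiff.continuous D.smooth) continuous_const)
  obtain ⟨p, hp⟩ : ∃ p, Ψ '' D.carrier = gball g p r := by
    rcases hr.eq_or_lt with rfl | hpos
    · obtain ⟨φ, ψ, -, -, -, h5, -⟩ := hi
      refine ⟨Ψ 0, ?_⟩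
      ext q
      refine ⟨fun hq => ?_, fun hq => ?_⟩
      · have h7 : rdist h o (ψ q) < ENNReal.ofReal 0 := h5 hq
        simp at h7
      · have h7 : rdist g (Ψ 0) q < ENNReal.ofReal 0 := hq
        simp at h7
    · have := hh.simplyConnected
      exact Vale.Agent.P219W88.two3 h g
        (exists_normal hκ (Vale.Agent.P219W88.hr h hh.complete) hh.sec.secLE) hN o r _ hpos hDo hi
  rw [hD, hp] at hD1
  rw [hp] at hi hDo
  obtain ⟨z1, z2⟩ := ae_eq_set.1 hD1
  refine ⟨p, hi, ?_, open_sub Ψ hDo z2⟩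
  rw [← (ball_row g hN p r).2.1]
  exact interior_maximal (open_sub Ψ hUo z1) hUo

/-- balls isometric to balls of the space form have the volume and the area of these -/
theorem ball_iso [SimplyConnectedSpace M] (hn : 2 ≤ n) (hκ : κ ≤ 0) (hc : Complete g)
    (hs : SecLE g κ) {N : Type} [TopologicalSpace N] [T2Space N] [ChartedSpace (E n) N]
    [IsManifold 𝓘(ℝ, E n) ∞ N] {h : RMetric (E n) N} (hh : IsSpaceForm h κ) {o : N} {p : M}
    {r : ℝ} (hr : 0 ≤ r) (hi : Isometric h (gball h o r) g (gball g p r)) :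
    rmeas g n (gball g p r) = ENNReal.ofReal (modelVol n κ r) ∧
      rmeas g (n - 1) (frontier (gball g p r)) = ENNReal.ofReal (modelArea n κ r) := by
  obtain ⟨s, -, h1, -, h3⟩ := rigid hn hκ hc hs Vale.Agent.P219W42.two1
    (Vale.Agent.P219W21.two2 g) (ball_row g) (ball_row g (exists_normal hκ hc hs) p r).1
  obtain ⟨rfl, h4⟩ := (h3 N h (Vale.Agent.P219W88.two3 h g) hh o).2 r hr hi
  exact ⟨h1, h4⟩

/-- the isoperimetric inequality for arbitrary sets -/
theorem any_ineq [SimplyConnectedSpace M] (hn : 2 ≤ n) (hκ : κ ≤ 0) (hc : Complete g)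
    (hs : SecLE g κ) {S : Set M} {r : ℝ} (hr : 0 ≤ r)
    (hV : rmeas g n S = ENNReal.ofReal (modelVol n κ r)) :
    ENNReal.ofReal (modelArea n κ r) ≤ rmeas g (n - 1) (frontier S) := by
  rcases eq_or_ne (rmeas g (n - 1) (frontier S)) ⊤ with h | hfin
  · rw [h]
    exact le_top
  have hN' : ∀ p, ∃ Ψ, Nice g p Ψ := fun p => (exists_normal hκ hc hs p).imp fun Ψ h => h.nice
  obtain ⟨Ψ⟩ := exists_chart hκ hc hs
  have hm : MeasurableSet (interior S) := isOpen_interior.measurableSet
  exact (perim_ge hn hκ hc hs Ψ hm hr ((vol_interior (by omega) hfin).trans hV)).1.trans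
    ((perimeter_le_frontier (by omega) hN' Ψ hm).trans (measure_mono frontier_interior_subset))

/-- the equality case for arbitrary sets -/
theorem any_rigid [SimplyConnectedSpace M] (hn : 2 ≤ n) (hκ : κ ≤ 0) (hc : Complete g)
    (hs : SecLE g κ) {S : Set M} {r : ℝ} (hr : 0 ≤ r)
    (hV : rmeas g n S = ENNReal.ofReal (modelVol n κ r)) {N : Type} [TopologicalSpace N]
    [T2Space N] [ChartedSpace (E n) N] [IsManifold 𝓘(ℝ, E n) ∞ N] {h : RMetric (E n) N}
    (hh : IsSpaceForm h κ) (o : N) :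
    rmeas g (n - 1) (frontier S) = ENNReal.ofReal (modelArea n κ r) ↔
      ∃ (p : M) (s : ℝ), 0 ≤ s ∧ Isometric h (gball h o s) g (gball g p s) ∧
        rmeas g (n - 1) (closure S \ closure (gball g p s)) = 0 ∧
        rmeas g (n - 1) (gball g p s \ interior S) = 0 := by
  have hn1 : 1 ≤ n := by omega
  have hN := exists_normal hκ hc hs
  have hN' : ∀ p, ∃ Ψ, Nice g p Ψ := fun p => (hN p).imp fun Ψ h => h.nice
  constructor
  · intro he
    have hfin : rmeas g (n - 1) (frontier S) ≠ ⊤ := by rw [he]; exact ENNReal.ofReal_ne_top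
    obtain ⟨Ψ⟩ := exists_chart hκ hc hs
    have hm : MeasurableSet (interior S) := isOpen_interior.measurableSet
    obtain ⟨h1, h2⟩ := perim_ge hn hκ hc hs Ψ hm hr ((vol_interior hn1 hfin).trans hV)
    obtain ⟨p, h3, h4, h5⟩ := h2 isOpen_interior (le_antisymm
      ((perimeter_le_frontier hn1 hN' Ψ hm).trans
        ((measure_mono frontier_interior_subset).trans he.le)) h1) N h hh o
    have hBo : IsOpen (gball g p r) := (ball_row g hN p r).1.isOpen
    have h6 : frontier (gball g p r) ⊆ frontier S := by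
      rw [hBo.frontier_eq]
      exact fun x hx => ⟨closure_mono interior_subset (closure_minimal h5 isClosed_closure hx.1),
        fun h7 => hx.2 (h4 h7)⟩
    have h7 : rmeas g (n - 1) (frontier S \ frontier (gball g p r)) = 0 := by
      rw [measure_diff h6 isClosed_frontier.measurableSet.nullMeasurableSet
        (ne_top_of_le_ne_top hfin (measure_mono h6)), he, (ball_iso hn hκ hc hs hh hr h3).2,
        tsub_self]
    refine ⟨p, r, hr, h3, measure_mono_null (fun x hx => ?_) h7,
      measure_mono_null (fun x hx => ?_) h7⟩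
    · exact ⟨⟨hx.1, fun h8 => hx.2 (subset_closure (h4 h8))⟩, fun h8 => hx.2 h8.1⟩
    · refine ⟨⟨closure_mono interior_subset (h5 hx.1), hx.2⟩, fun h8 => ?_⟩
      rw [hBo.frontier_eq] at h8
      exact h8.2 hx.1
  · rintro ⟨p, s, hs0, h3, z1, z2⟩
    obtain ⟨b1, b2⟩ := ball_iso hn hκ hc hs hh hs0 h3
    have hBo : IsOpen (gball g p s) := (ball_row g hN p s).1.isOpen
    set B := gball g p s with hB
    have v1 : rmeas g n (closure S \ closure B) = 0 := vol_zero_of_area hn1 (by simp [z1])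
    have v2 : rmeas g n (B \ interior S) = 0 := vol_zero_of_area hn1 (by simp [z2])
    have v3 : rmeas g n (frontier B) = 0 :=
      vol_zero_of_area hn1 (by rw [b2]; exact ENNReal.ofReal_ne_top)
    have h4 : rmeas g n S = rmeas g n B := by
      apply le_antisymm
      · calc rmeas g n S ≤ rmeas g n ((closure S \ closure B) ∪ frontier B ∪ B) :=
              measure_mono fun x hx => by
                by_cases h5 : x ∈ B
                · exact Or.inr h5
                by_cases h6 : x ∈ closure B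
                · exact Or.inl (Or.inr ⟨h6, fun h7 => h5 (interior_subset h7)⟩)
                · exact Or.inl (Or.inl ⟨subset_closure hx, h6⟩)
          _ ≤ rmeas g n (closure S \ closure B) + rmeas g n (frontier B) + rmeas g n B :=
              (measure_union_le _ _).trans (add_le_add_left (measure_union_le _ _) _)
          _ = rmeas g n B := by rw [v1, v3, zero_add, zero_add]
      · calc rmeas g n B ≤ rmeas g n ((B \ interior S) ∪ S) := measure_mono fun x hx => by
                by_cases h5 : x ∈ interior S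
                exacts [Or.inr (interior_subset h5), Or.inl ⟨hx, h5⟩]
          _ ≤ rmeas g n (B \ interior S) + rmeas g n S := measure_union_le _ _
          _ = rmeas g n S := by rw [v2, zero_add]
    obtain rfl : r = s := radius_eq hn1 hr hs0 (hV.symm.trans (h4.trans b1))
    refine le_antisymm ?_ (any_ineq hn hκ hc hs hr hV)
    calc rmeas g (n - 1) (frontier S)
        ≤ rmeas g (n - 1) ((closure S \ closure B) ∪ (B \ interior S) ∪ frontier B) :=
          measure_mono fun x hx => by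
            by_cases h5 : x ∈ B
            · exact Or.inl (Or.inr ⟨h5, hx.2⟩)
            by_cases h6 : x ∈ closure B
            · exact Or.inr ⟨h6, fun h7 => h5 (interior_subset h7)⟩
            · exact Or.inl (Or.inl ⟨hx.1, h6⟩)
      _ ≤ rmeas g (n - 1) (closure S \ closure B) + rmeas g (n - 1) (B \ interior S) +
            rmeas g (n - 1) (frontier B) :=
          (measure_union_le _ _).trans (add_le_add_left (measure_union_le _ _) _)
      _ = _ := by rw [z1, z2, b2, zero_add, zero_add]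

theorem real_ind {P : ℝ → Prop} {a b : ℝ} (hab : a ≤ b) (h0 : P a)
    (hl : ∀ c ∈ Ioc a b, (∀ s ∈ Ico a c, P s) → P c)
    (hr : ∀ c ∈ Ico a b, P c → ∀ᶠ s in 𝓝[>] c, P s) : P b := by
  set A := {t ∈ Icc a b | ∀ s ∈ Icc a t, P s} with hA
  have ha : a ∈ A := ⟨⟨le_rfl, hab⟩, fun s hs => by rw [le_antisymm hs.2 hs.1]; exact h0⟩
  have hb : BddAbove A := ⟨b, fun t ht => ht.1.2⟩
  have c1 : a ≤ sSup A := le_csSup hb ha
  have c2 : sSup A ≤ b := csSup_le ⟨a, ha⟩ fun t ht => ht.1.2
  have c3 : ∀ s ∈ Ico a (sSup A), P s := fun s hs => by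
    obtain ⟨t, ht, h1⟩ := exists_lt_of_lt_csSup ⟨a, ha⟩ hs.2
    exact ht.2 s ⟨hs.1, h1.le⟩
  have c4 : P (sSup A) := by
    rcases c1.eq_or_lt with h | h
    · rw [← h]
      exact h0
    · exact hl _ ⟨h, c2⟩ c3
  rcases c2.eq_or_lt with h | h
  · rw [← h]
    exact c4
  obtain ⟨u, hu, h1⟩ := mem_nhdsGT_iff_exists_Ioc_subset.1 (hr _ ⟨c1, h⟩ c4)
  have h2 : min u b ∈ A := by
    refine ⟨⟨le_min (c1.trans (le_of_lt hu)) hab, min_le_right _ _⟩, fun s hs => ?_⟩
    rcases lt_trichotomy s (sSup A) with h3 | h3 | h3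
    · exact c3 s ⟨hs.1, h3⟩
    · rw [h3]
      exact c4
    · exact h1 ⟨h3, hs.2.trans (min_le_left _ _)⟩
  exact absurd (le_csSup hb h2) (not_le.2 (lt_min hu h))

theorem step [SimplyConnectedSpace M] (hn : 2 ≤ n) (hκ : κ ≤ 0) (hc : Complete g)
    (hs : SecLE g κ) {S : Set M} (hS : MeasurableSet S) {q : ℝ} (hq : 0 < q)
    (hV : rmeas g n S = ENNReal.ofReal (modelVol n κ q)) {h₀ : ℝ} (hh₀ : 0 < h₀)
    (hfin : rmeas g n (nb g S h₀) ≠ ⊤) {c : ℝ} (hc0 : 0 ≤ c) (hc1 : c < 1) :
    ∀ᶠ h : ℝ in 𝓝[>] 0, ENNReal.ofReal (modelVol n κ (q + c * h)) ≤ rmeas g n (nb g S h) := by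
  have hn1 : 1 ≤ n := by omega
  have hN' : ∀ p, ∃ Ψ, Nice g p Ψ := fun p => (exists_normal hκ hc hs p).imp fun Ψ h => h.nice
  obtain ⟨Ψ⟩ := exists_chart hκ hc hs
  have hA := area_pos hn1 κ hq
  set a := (c + 1) / 2 * modelArea n κ q with ha
  have h1 := perimeter_le_mink hN' Ψ hS hh₀ hfin (a := a) (by positivity)
    (lt_of_lt_of_le ((ENNReal.ofReal_lt_ofReal_iff hA).2 (by nlinarith))
      (perim_ge hn hκ hc hs Ψ hS hq.le hV).1)
  have hd : HasDerivAt (fun h : ℝ => modelVol n κ (q + c * h)) (modelArea n κ q * c) 0 := by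
    have d1 : HasDerivAt (fun h : ℝ => q + c * h) c 0 := by
      simpa using ((hasDerivAt_id (0 : ℝ)).const_mul c).const_add q
    have d2 := hasDerivAt_vol (n := n) κ (q + c * 0)
    have d3 := d2.comp (0 : ℝ) d1
    rwa [mul_zero, add_zero] at d3
  have h2 := hd.tendsto_slope_zero_right.eventually
    (gt_mem_nhds (show modelArea n κ q * c < a by nlinarith))
  filter_upwards [h1, h2, self_mem_nhdsWithin] with h k1 k2 k3
  have h0 : 0 < h := k3
  rw [zero_add, mul_zero, add_zero, smul_eq_mul, inv_mul_lt_iff₀ h0] at k2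
  rw [← measure_inter_add_diff _ hS, inter_eq_right.2 (subset_nb S h0), hV]
  refine le_trans (ENNReal.ofReal_le_ofReal (show _ ≤ modelVol n κ q + a * h by linarith)) ?_
  rw [ENNReal.ofReal_add (vol_nonneg hn1 κ hq.le) (by positivity)]
  exact add_le_add_right (ENNReal.ofReal_le_of_le_toReal k1.le) _

theorem exists_radius (hn : 1 ≤ n) {v : ℝ≥0∞} (hv : v ≠ ⊤) :
    ∃ r, 0 ≤ r ∧ v = ENNReal.ofReal (modelVol n κ r) := by
  obtain ⟨r, hr, h⟩ := (vol_bijOn hn κ).surjOn (mem_Ici.2 (ENNReal.toReal_nonneg (a := v)))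
  exact ⟨r, hr, by rw [h, ENNReal.ofReal_toReal hv]⟩

/-- the growth of the neighbourhoods of a set -/
theorem growth [SimplyConnectedSpace M] (hn : 2 ≤ n) (hκ : κ ≤ 0) (hc : Complete g)
    (hs : SecLE g κ) {S : Set M} (hS : S.Nonempty) {r t : ℝ} (hr : 0 ≤ r) (ht : 0 < t)
    (hV : ENNReal.ofReal (modelVol n κ r) ≤ rmeas g n S) :
    ENNReal.ofReal (modelVol n κ (r + t)) ≤ rmeas g n (nb g S t) := by
  have hn1 : 1 ≤ n := by omega
  rcases eq_or_ne (rmeas g n (nb g S t)) ⊤ with h | hfin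
  · rw [h]
    exact le_top
  have hN' : ∀ p, ∃ Ψ, Nice g p Ψ := fun p => (exists_normal hκ hc hs p).imp fun Ψ h => h.nice
  obtain ⟨Ψ⟩ := exists_chart hκ hc hs
  have cV : Continuous fun x : ℝ => ENNReal.ofReal (modelVol n κ x) :=
    ENNReal.continuous_ofReal.comp (vol_cont κ)
  have key : ∀ c ∈ Ioo (0 : ℝ) 1,
      ENNReal.ofReal (modelVol n κ (r + c * (t - (1 - c) * t))) ≤ rmeas g n (nb g S t) := by
    intro c hc'
    have a0 : 0 < (1 - c) * t := mul_pos (sub_pos.2 hc'.2) ht
    set a := (1 - c) * t with ha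
    refine real_ind (P := fun s => ENNReal.ofReal (modelVol n κ (r + c * (s - a))) ≤
      rmeas g n (nb g S s)) (a := a) (by nlinarith [hc'.1]) ?_ (fun x hx h1 => ?_)
      fun x hx h1 => ?_
    · simp only [sub_self, mul_zero, add_zero]
      exact hV.trans (measure_mono (subset_nb S a0))
    · have t1 : Tendsto (fun s => ENNReal.ofReal (modelVol n κ (r + c * (s - a)))) (𝓝[<] x)
          (𝓝 (ENNReal.ofReal (modelVol n κ (r + c * (x - a))))) :=
        ((cV.comp (show Continuous fun s : ℝ => r + c * (s - a) by fun_prop)).tendsto x).mono_left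
          nhdsWithin_le_nhds
      refine le_of_tendsto t1 ?_
      filter_upwards [Ico_mem_nhdsLT hx.1] with s hs'
      exact (h1 s hs').trans (measure_mono (nb_mono S hs'.2.le))
    · have x0 : 0 < x := a0.trans_le hx.1
      have hU := nb_open (g := g) S x
      obtain ⟨q, hq, hqV⟩ := exists_radius (κ := κ) hn1
        (ne_top_of_le_ne_top hfin (measure_mono (nb_mono S hx.2.le)))
      have hq0 : 0 < q := by
        refine hq.lt_of_ne fun h2 => ?_
        rw [← h2, vol_zero, ENNReal.ofReal_zero, rmeas_vol hN' Ψ hU.measurableSet] at hqV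
        have h3 := open_sub Ψ (B := ∅) hU (by simpa using riemVol_null _ hqV)
        obtain ⟨y, hy⟩ := hS
        simpa using h3 (subset_nb S x0 hy)
      have p1 : 0 ≤ r + c * (x - a) := add_nonneg hr (mul_nonneg hc'.1.le (sub_nonneg.2 hx.1))
      have h2 : r + c * (x - a) ≤ q := by
        rw [hqV, ENNReal.ofReal_le_ofReal_iff (vol_nonneg hn1 κ hq)] at h1
        exact ((vol_strictMono hn1 κ).le_iff_le p1 hq).1 h1
      have h3 := step hn hκ hc hs hU.measurableSet hq0 hqV (h₀ := t - x) (sub_pos.2 hx.2)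
        (ne_top_of_le_ne_top hfin (measure_mono ((nb_nb S x0.le (sub_pos.2 hx.2).le).trans
          (nb_mono S (by linarith))))) hc'.1.le hc'.2
      have t1 : Tendsto (fun s : ℝ => s - x) (𝓝[>] x) (𝓝[>] 0) := by
        refine tendsto_nhdsWithin_iff.2 ⟨?_, ?_⟩
        · have : Continuous fun s : ℝ => s - x := by fun_prop
          simpa using (this.tendsto x).mono_left nhdsWithin_le_nhds
        · filter_upwards [self_mem_nhdsWithin] with s hs'
          exact sub_pos.2 (show x < s from hs')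
      filter_upwards [t1.eventually h3, self_mem_nhdsWithin] with s k1 k2
      have s0 : 0 < s - x := sub_pos.2 (show x < s from k2)
      have p2 : 0 ≤ c * (s - x) := mul_nonneg hc'.1.le s0.le
      refine le_trans (ENNReal.ofReal_le_ofReal ((vol_strictMono hn1 κ).monotoneOn
        (show 0 ≤ r + c * (s - a) by nlinarith) (show 0 ≤ q + c * (s - x) by linarith)
        (by nlinarith))) (k1.trans (measure_mono ((nb_nb S x0.le s0.le).trans
          (nb_mono S (by linarith)))))
  have t1 : Tendsto (fun c : ℝ => ENNReal.ofReal (modelVol n κ (r + c * (t - (1 - c) * t))))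
      (𝓝[<] 1) (𝓝 (ENNReal.ofReal (modelVol n κ (r + 1 * (t - (1 - 1) * t))))) :=
    ((cV.comp (show Continuous fun c : ℝ => r + c * (t - (1 - c) * t) by fun_prop)).tendsto
      1).mono_left nhdsWithin_le_nhds
  rw [show r + 1 * (t - (1 - 1) * t) = r + t by ring] at t1
  refine le_of_tendsto t1 ?_
  filter_upwards [Ioo_mem_nhdsLT zero_lt_one] with c hc'
  exact key c hc'

end Vale.Agent.N219
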