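import Vale.Agent.N219.Final

open scoped Manifold ContDiff ENNReal
open Set Vale.Agent.N219D

namespace Vale.Agent.N219.OldAllSets

/-- The Cartan-Hadamard isoperimetric inequality for arbitrary sets, and the sharp growth of the
volume of neighbourhoods, with their equality cases. `(M, g)` is complete and simply connected
with `Sec ≤ κ ≤ 0`, and `(N, h)` is the space form of curvature `κ`. -/
theorem all_sets {n : ℕ} (hn : 2 ≤ n) {κ : ℝ} (hκ : κ ≤ 0)
    (M : Type) [TopologicalSpace M] [T2Space M] [ChartedSpace (E n) M]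
    [IsManifold 𝓘(ℝ, E n) ∞ M] [MeasurableSpace M] [BorelSpace M] (g : RMetric (E n) M)
    (hM : IsSpace g (Iic κ)) :
    let vol : Set M → ℝ≥0∞ := meas g n
    let area : Set M → ℝ≥0∞ := meas g (n - 1)
    let B : M → ℝ → Set M := gball g
    -- (1) arbitrary sets of finite volume
    (∀ S : Set M, vol S ≠ ⊤ → profile n κ (vol S) ≤ area (frontier S)) ∧
    -- (2) neighbourhoods of arbitrary sets
    (∀ (S : Set M) (r t : ℝ), S.Nonempty → 0 ≤ r → 0 < t →
      ENNReal.ofReal (modelVol n κ r) ≤ vol S →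
      ENNReal.ofReal (modelVol n κ (r + t)) ≤ vol (⋃ y ∈ S, B y t)) ∧
    ∀ (N : Type) [TopologicalSpace N] [T2Space N] [ChartedSpace (E n) N]
      [IsManifold 𝓘(ℝ, E n) ∞ N] (h : RMetric (E n) N) (o : N), IsSpace h {κ} →
      -- (3) equality in (1)
      (∀ S : Set M, vol S ≠ ⊤ → (area (frontier S) = profile n κ (vol S) ↔
        ∃ (p : M) (r : ℝ), 0 ≤ r ∧ IsoBall h o r g (B p r) ∧
          area (closure S \ closure (B p r)) = 0 ∧ area (B p r \ interior S) = 0)) ∧
      -- (4) equality in (2)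
      ∀ (S : Set M) (r t : ℝ), S.Nonempty → 0 ≤ r → 0 < t →
        ENNReal.ofReal (modelVol n κ r) ≤ vol S →
        (vol (⋃ y ∈ S, B y t) = ENNReal.ofReal (modelVol n κ (r + t)) ↔
          ∃ p : M, ⋃ y ∈ S, B y t = B p (r + t) ∧ IsoBall h o (r + t) g (B p (r + t))) := by
  obtain ⟨h0, k0⟩ := (sanity (n := n) (by omega) hκ).2
  exact ⟨fun S hS => ((main hn hκ hM 0 k0).2.1 S hS).1,
    fun S r t h1 h2 h3 h4 => ((main hn hκ hM 0 k0).2.2 S r t h1 h2 h3 h4).1,
    fun _ _ _ _ _ _ o k => ⟨fun S hS => ((main hn hκ hM o k).2.1 S hS).2,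
      fun S r t h1 h2 h3 h4 => ((main hn hκ hM o k).2.2 S r t h1 h2 h3 h4).2⟩⟩

end Vale.Agent.N219.OldAllSets
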