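import Vale.Agent.N219.Glue
import Vale.Agent.P219W.Main

/-!
# P219: the perimeter is at most the Hausdorff measure of the frontier, and at most the lower
Minkowski content
-/

set_option linter.all false
set_option maxSynthPendingDepth 3

open MeasureTheory Set Filter Metric Matrix
open scoped ENNReal NNReal Topology RealInnerProductSpace Manifold ContDiff

noncomputable section

namespace Vale.Agent.N219

open Vale.Agent.P255 (RMetric)
open Vale.Agent.P219.Co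
open Vale.Agent.P219.H381 (pb isMetricOn_pb bv sum_bv dot_toRiem)
open Vale.Agent.P219H381
open Vale.Agent.P219W
open Vale.Agent.P219W21

variable {n : ℕ}

theorem Loc.mono {ι : Type} {l : Filter ι} {τ : ι → Measure (E n)} {S W : Set (E n)} {e : E n}
    {a a' : ℝ} (h : Loc l τ S W e a) (ha : a ≤ a') : Loc l τ S W e a' := by
  intro w h1 h2 h3 h4 ε hε
  filter_upwards [h w h1 h2 h3 h4 ε hε] with i hi
  have := mul_le_mul_of_nonneg_right ha (integral_nonneg (μ := τ i) h3)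
  linarith

theorem field_le {ι : Type} {l : Filter ι} {τ : ι → Measure (E n)}
    (hfin : ∀ᶠ i in l, IsFiniteMeasure (τ i)) (G : RiemMetric n) {S : Set (E n)} (m : ℕ)
    (hloc : ∀ c : ℝ≥0, 1 < c → ∀ x₀, ∃ W ∈ 𝓝 x₀, ∃ L : E n →L[ℝ] E n,
      (∀ v : E n, ‖L v‖ ^ 2 = (fun i => v i) ⬝ᵥ G.g x₀ *ᵥ fun i => v i) ∧
      ∀ e, Loc l τ S W e ((c : ℝ) ^ m * (‖L e‖ / volDensity G x₀ + (c - 1))))
    {X : E n → Fin n → ℝ} (hX : TestField G X) {ε : ℝ} (hε : 0 < ε) :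
    ∀ᶠ i in l, ∫ x in S, divg G X x * volDensity G x ∂leb n ≤ (1 + ε) * (τ i).real univ + ε := by
  obtain ⟨c, hc1, hc2⟩ : ∃ c : ℝ≥0, 1 < c ∧ (c : ℝ) ^ (m + 1) < 1 + ε / 2 := by
    have t : Tendsto (fun c : ℝ≥0 => (c : ℝ) ^ (m + 1)) (𝓝[>] 1) (𝓝 (((1 : ℝ≥0) : ℝ) ^ (m + 1))) :=
      ((show Continuous fun c : ℝ≥0 => (c : ℝ) ^ (m + 1) by fun_prop).tendsto 1).mono_left
        nhdsWithin_le_nhds
    rw [NNReal.coe_one, one_pow] at t
    obtain ⟨c, h1, h2⟩ := ((t.eventually (gt_mem_nhds (by linarith : (1 : ℝ) < 1 + ε / 2))).and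
      self_mem_nhdsWithin).exists
    exact ⟨c, h2, h1⟩
  have c1 : (1 : ℝ) < c := hc1
  set Y : Fin n → E n → ℝ := fun j y => volDensity G y * X y j with hY
  have hY1 : ∀ j, ContDiff ℝ 1 (Y j) := fun j =>
    ((volDensity_contDiff G).of_le (by simp)).mul (ContDiff.of_le (hX.smooth j) (by simp))
  have hYK : ∀ j, ∀ x ∉ tsupport X, Y j x = 0 := fun j x hx => by
    simp only [hY, image_eq_zero_of_notMem_tsupport hx, Pi.zero_apply, mul_zero]
  have hYc : ∀ j, HasCompactSupport (Y j) := fun j => HasCompactSupport.intro hX.compact (hYK j)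
  have e1 : ∫ x in S, divg G X x * volDensity G x ∂leb n = ∑ j, dir S (Y j) (bv j) := by
    unfold dir leb
    rw [← integral_finset_sum _ fun j _ => (int_fd (hY1 j) (hYc j) _).integrableOn]
    congr 1
    funext x
    unfold divg
    rw [mul_comm, ← mul_assoc, mul_inv_cancel₀ (volDensity_pos G x).ne', one_mul]
    exact Finset.sum_congr rfl fun j _ =>
      Vale.Agent.P219.H381.pd_eq ((hY1 j).differentiable one_ne_zero x) j
  have key := glue hfin (S := S) bv hY1 hX.compact hYK (c := 1 + ε / 2) (by linarith) (fun x₀ => ?_)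
    (half_pos hε)
  · filter_upwards [key] with i hi
    rw [e1]
    rw [show 1 + ε / 2 + ε / 2 = 1 + ε by ring] at hi
    linarith
  obtain ⟨W, hW, L, h1, h2⟩ := hloc c hc1 x₀
  have ρ0 := volDensity_pos G x₀
  refine ⟨W, hW, (c : ℝ) ^ m * (‖L‖ / volDensity G x₀ + (c - 1)), ?_, (h2 _).mono ?_,
    fun j => ⟨(h2 _).mono ?_, (h2 _).mono ?_⟩⟩
  · have : 0 ≤ (c : ℝ) - 1 := by linarith
    positivity
  · have e2 : ∑ j, Y j x₀ • (bv j : E n) = volDensity G x₀ • WithLp.toLp 2 (X x₀) := by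
      rw [← sum_bv (WithLp.toLp 2 (X x₀)), Finset.smul_sum]
      exact Finset.sum_congr rfl fun j _ => by rw [smul_smul]
    have h3 : ‖L (WithLp.toLp 2 (X x₀))‖ ≤ 1 := by
      have h4 := h1 (WithLp.toLp 2 (X x₀))
      have h5 : ‖L (WithLp.toLp 2 (X x₀))‖ ^ 2 ≤ 1 := h4.trans_le (hX.le_one x₀)
      exact (abs_le_of_sq_le_sq' (by rwa [one_pow]) zero_le_one).2
    rw [e2, map_smul, norm_smul, Real.norm_of_nonneg ρ0.le, mul_div_cancel_left₀ _ ρ0.ne']
    refine le_trans ?_ hc2.le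
    rw [pow_succ]
    exact mul_le_mul_of_nonneg_left (by linarith) (by positivity)
  · have h3 : ‖L (bv j)‖ ≤ ‖L‖ := (L.le_opNorm _).trans_eq (by simp [bv])
    gcongr
  · have h3 : ‖L (-bv j)‖ ≤ ‖L‖ := (L.le_opNorm _).trans_eq (by simp [bv])
    gcongr

variable {M : Type} [TopologicalSpace M] [T2Space M] [ChartedSpace (E n) M]
  [IsManifold 𝓘(ℝ, E n) ∞ M] {g : RMetric (E n) M}

theorem local_lin (hN : ∀ p, ∃ Ψ, Nice g p Ψ) (Ψ : E n ≃ₘ^∞⟮𝓘(ℝ, E n), 𝓘(ℝ, E n)⟯ M) (x₀ : E n)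
    {c : ℝ≥0} (hc : 1 < c) : ∃ W, IsOpen W ∧ x₀ ∈ W ∧ ∃ L : E n →L[ℝ] E n,
      volDensity (pl g Ψ) x₀ = LinearMap.normDet (L : E n →ₗ[ℝ] E n) ∧
      (∀ v : E n, ‖L v‖ ^ 2 = (fun i => v i) ⬝ᵥ (pl g Ψ).g x₀ *ᵥ fun i => v i) ∧
      ∀ x ∈ W, ∀ y ∈ W, edist (L x) (L y) ≤ c * rdist g (Ψ x) (Ψ y) ∧
        rdist g (Ψ x) (Ψ y) ≤ c * (c * edist (L x) (L y)) := by
  obtain ⟨Φ, N⟩ := hN (Ψ x₀)
  have hφ : Vale.Agent.P219.Mfd.SmoothMapOn (E n) Ψ univ := Ψ.contMDiff.contMDiffOn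
  have inj : Function.Injective (fderiv ℝ (Φ.symm ∘ Ψ) x₀) := fun v w h =>
    (Ψ.mfderivToContinuousLinearEquiv (by simp) x₀).injective (by
      change mfderiv 𝓘(ℝ, E n) 𝓘(ℝ, E n) Ψ x₀ v = mfderiv 𝓘(ℝ, E n) 𝓘(ℝ, E n) Ψ x₀ w
      rw [mf_eq Φ isOpen_univ hφ (mem_univ _), mf_eq Φ isOpen_univ hφ (mem_univ _), h])
  have z' : Φ.symm (Ψ x₀) = 0 := by rw [← N.zero, Φ.symm_apply_apply]
  have z : (Φ.symm ∘ Ψ) x₀ = 0 := z'
  have h1 := cd_F Φ isOpen_univ hφ (mem_univ x₀)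
  obtain ⟨W, hW, h2⟩ := near_lin (h1.hasStrictFDerivAt (by simp)) inj hc
  obtain ⟨δ, hδ, h3⟩ := N.rdist_le c hc
  have h4 : (Φ.symm ∘ Ψ) ⁻¹' Metric.ball 0 δ ∈ 𝓝 x₀ :=
    h1.continuousAt.preimage_mem_nhds (by rw [z]; exact Metric.ball_mem_nhds _ hδ)
  have e : ∀ x, Φ ((Φ.symm ∘ Ψ) x) = Ψ x := fun x => Φ.apply_symm_apply _
  refine ⟨interior (W ∩ (Φ.symm ∘ Ψ) ⁻¹' Metric.ball 0 δ), isOpen_interior,
    mem_interior_iff_mem_nhds.2 (inter_mem hW h4), fderiv ℝ (Φ.symm ∘ Ψ) x₀,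
    J_eq g Φ isOpen_univ hφ (mem_univ _) N, fun v => ?_, fun x hx y hy => ⟨?_, ?_⟩⟩
  · have h5 := pull_eq g Φ isOpen_univ hφ (mem_univ x₀) v v
    rw [z', N.pb_zero, real_inner_self_eq_norm_sq] at h5
    rw [dot_toRiem, ← h5]
    rfl
  · have b := N.le_rdist ((Φ.symm ∘ Ψ) x) ((Φ.symm ∘ Ψ) y)
    rw [e, e] at b
    exact (h2 x (interior_subset hx).1 y (interior_subset hy).1).2.trans (mul_le_mul_right b _)
  · have b := h3 _ (interior_subset hx).2 _ (interior_subset hy).2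
    rw [e, e, ENNReal.ofReal_coe_nnreal] at b
    exact b.trans (mul_le_mul_right (h2 x (interior_subset hx).1 y (interior_subset hy).1).1 _)

variable [MeasurableSpace M] [BorelSpace M]

/-- the perimeter is at most the Hausdorff measure of the frontier -/
theorem perimeter_le_frontier (hn : 1 ≤ n) (hN : ∀ p, ∃ Ψ, Nice g p Ψ)
    (Ψ : E n ≃ₘ^∞⟮𝓘(ℝ, E n), 𝓘(ℝ, E n)⟯ M) {S : Set M} (hS : MeasurableSet S) :
    perimeter (pl g Ψ) (Ψ ⁻¹' S) ≤ rmeas g (n - 1) (frontier S) := by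
  rcases eq_or_ne (rmeas g (n - 1) (frontier S)) ⊤ with h | hfin
  · rw [h]
    exact le_top
  set τ : Measure (E n) := ((rmeas g (n - 1)).restrict (frontier S)).map
    Ψ.toHomeomorph.toMeasurableEquiv.symm with hτ
  have hτA : ∀ A : Set (E n), τ A = rmeas g (n - 1) (Ψ '' A ∩ frontier S) := by
    intro A
    rw [hτ, MeasurableEquiv.map_apply, Measure.restrict_apply' isClosed_frontier.measurableSet]
    congr 2
    exact (Ψ.toHomeomorph.image_eq_preimage_symm A).symm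
  have hsu : Function.Surjective Ψ := Ψ.surjective
  have hτu : τ univ = rmeas g (n - 1) (frontier S) := by
    rw [hτA, image_univ, hsu.range_eq, univ_inter]
  haveI : IsFiniteMeasure τ := ⟨by rw [hτu]; exact hfin.lt_top⟩
  have hS' : MeasurableSet (Ψ ⁻¹' S) := measurable_Psi Ψ hS
  have hfr : frontier (Ψ ⁻¹' S) = Ψ ⁻¹' frontier S := (Ψ.toHomeomorph.preimage_frontier S).symm
  refine iSup₂_le fun X hX => ?_
  rw [← hτu, ← ofReal_measureReal]
  refine ENNReal.ofReal_le_ofReal (le_of_forall_pos_le_add fun ε hε => ?_)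
  have p0 : 0 ≤ τ.real univ := measureReal_nonneg
  have hε' : 0 < ε / (τ.real univ + 1) := by positivity
  have key := field_le (l := (⊤ : Filter Unit)) (τ := fun _ => τ)
    (Eventually.of_forall fun _ => inferInstance) (pl g Ψ) (S := Ψ ⁻¹' S) (n - 1)
    (fun c hc x₀ => ?_) hX hε'
  · have h1 := eventually_top.1 key ()
    have h2 : ε / (τ.real univ + 1) * (τ.real univ + 1) = ε := div_mul_cancel₀ _ (by positivity)
    nlinarith
  obtain ⟨W, hW, hx₀, L, h1, h2, h3⟩ := local_lin hN Ψ x₀ hc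
  have c1 : (1 : ℝ) < c := hc
  have ρ0 := volDensity_pos (pl g Ψ) x₀
  set ρ := volDensity (pl g Ψ) x₀ with hρ
  refine ⟨W, hW.mem_nhds hx₀, L, h2, fun e w w1 w2 w3 w4 ε hε => Eventually.of_forall fun _ => ?_⟩
  have c2 : 0 < (c : ℝ) - 1 := by linarith
  refine (dir_front hS' w1 w2 w3 hW w4 τ (by positivity) fun A hA h hh => ?_).trans
    (le_add_of_nonneg_right hε.le)
  have a1 := LinearMap.euclideanHausdorffMeasure_image_eq_normDet_mul_volume
    (L : E n →ₗ[ℝ] E n) (sw A e h)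
  rw [finrank_euclideanSpace_fin, EuclideanSpace.euclideanHausdorffMeasure_eq_volume, ← h1] at a1
  have a2 : (L : E n →ₗ[ℝ] E n) '' sw A e h ⊆ sw (L '' A) (L e) h := by
    rintro _ ⟨_, ⟨a, ha, s, hs, rfl⟩, rfl⟩
    exact ⟨L a, ⟨a, ha, rfl⟩, s, hs, by simp⟩
  have a3 := sw_le hn (L '' A) (L e) hh.le (η := h * ρ * (c - 1)) (by positivity)
  have a4 : (μHE[n - 1] : Measure (E n)) (L '' A) ≤ (c : ℝ≥0∞) ^ (n - 1) * τ A := by
    rw [hτA, inter_eq_left.2 (by
      rintro _ ⟨a, ha, rfl⟩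
      have := (hA ha).2
      rwa [hfr] at this)]
    letI := riemSpace g
    exact image_le (f := L) (h := Ψ) (fun x hx y hy => (h3 x (hA hx).1 y (hA hy).1).1) (n - 1)
  have a5 := (a1.symm.le.trans (measure_mono a2)).trans (a3.trans (mul_le_mul_right a4 _))
  refine (ENNReal.mul_le_mul_iff_right (a := ENNReal.ofReal ρ) (by simpa using ρ0)
    ENNReal.ofReal_ne_top).1 (a5.trans (le_of_eq ?_))
  rw [← mul_assoc, ← mul_assoc, ← ENNReal.ofReal_coe_nnreal, ← ENNReal.ofReal_pow c.coe_nonneg,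
    ← ENNReal.ofReal_mul (by positivity), ← ENNReal.ofReal_mul ρ0.le]
  congr 2
  field_simp

/-- the open `t`-neighbourhood of `S` -/
def nb (g : RMetric (E n) M) (S : Set M) (t : ℝ) : Set M :=
  {x | ∃ y ∈ S, rdist g y x < ENNReal.ofReal t}

omit [MeasurableSpace M] [BorelSpace M] in
theorem nb_open (S : Set M) (t : ℝ) : IsOpen (nb g S t) := by
  letI := riemSpace g
  have : nb g S t = ⋃ y ∈ S, {x | edist y x < ENNReal.ofReal t} := by
    ext x
    simp only [nb, mem_setOf_eq, mem_iUnion, exists_prop]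
    rfl
  rw [this]
  exact isOpen_biUnion fun y _ => isOpen_lt (continuous_const.edist continuous_id) continuous_const

omit [MeasurableSpace M] [BorelSpace M] in
theorem nb_mono (S : Set M) {s t : ℝ} (h : s ≤ t) : nb g S s ⊆ nb g S t :=
  fun _ ⟨y, hy, h1⟩ => ⟨y, hy, h1.trans_le (ENNReal.ofReal_le_ofReal h)⟩

omit [MeasurableSpace M] [BorelSpace M] in
theorem subset_nb (S : Set M) {t : ℝ} (h : 0 < t) : S ⊆ nb g S t :=
  fun x hx => ⟨x, hx, by rw [rdist_self]; exact ENNReal.ofReal_pos.2 h⟩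

omit [MeasurableSpace M] [BorelSpace M] in
theorem nb_nb (S : Set M) {s t : ℝ} (hs : 0 ≤ s) (ht : 0 ≤ t) :
    nb g (nb g S s) t ⊆ nb g S (s + t) := by
  rintro x ⟨y, ⟨z, hz, h1⟩, h2⟩
  refine ⟨z, hz, (rdist_triangle g z y x).trans_lt ?_⟩
  rw [ENNReal.ofReal_add hs ht]
  exact ENNReal.add_lt_add h1 h2

/-- the perimeter is at most the lower Minkowski content -/
theorem perimeter_le_mink (hN : ∀ p, ∃ Ψ, Nice g p Ψ)
    (Ψ : E n ≃ₘ^∞⟮𝓘(ℝ, E n), 𝓘(ℝ, E n)⟯ M) {S : Set M} (hS : MeasurableSet S) {h₀ : ℝ}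
    (hh₀ : 0 < h₀) (hfin : rmeas g n (nb g S h₀) ≠ ⊤) {a : ℝ} (ha : 0 ≤ a)
    (haP : ENNReal.ofReal a < perimeter (pl g Ψ) (Ψ ⁻¹' S)) :
    ∀ᶠ h : ℝ in 𝓝[>] 0, a * h < (rmeas g n (nb g S h \ S)).toReal := by
  obtain ⟨X, hX'⟩ := lt_iSup_iff.1 haP
  obtain ⟨hX, hI⟩ := lt_iSup_iff.1 hX'
  clear hX'
  set I := ∫ x in Ψ ⁻¹' S, divg (pl g Ψ) X x * volDensity (pl g Ψ) x ∂leb n with hIdef
  have haI : a < I := (ENNReal.ofReal_lt_ofReal_iff_of_nonneg ha).1 hI
  set ν : Measure (E n) := volume.withDensity fun x => ENNReal.ofReal (volDensity (pl g Ψ) x)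
    with hν
  have hm : ∀ h, MeasurableSet (nb g S h \ S) := fun h => (nb_open S h).measurableSet.diff hS
  have hν1 : ∀ h, ν (Ψ ⁻¹' (nb g S h \ S)) = rmeas g n (nb g S h \ S) := fun h => by
    rw [hν, withDensity_apply _ (measurable_Psi Ψ (hm h)), rmeas_vol hN Ψ (hm h)]
    rfl
  set τ : ℝ → Measure (E n) := fun h =>
    ENNReal.ofReal h⁻¹ • ν.restrict (Ψ ⁻¹' (nb g S h \ S)) with hτ
  have hτu : ∀ h, τ h univ = ENNReal.ofReal h⁻¹ * rmeas g n (nb g S h \ S) := fun h => by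
    rw [hτ]
    simp only [Measure.smul_apply, smul_eq_mul, Measure.restrict_apply MeasurableSet.univ,
      univ_inter, hν1]
  have hf1 : ∀ᶠ h : ℝ in 𝓝[>] 0, rmeas g n (nb g S h \ S) ≠ ⊤ := by
    filter_upwards [Ioc_mem_nhdsGT hh₀] with h hh
    exact ne_top_of_le_ne_top hfin (measure_mono (diff_subset.trans (nb_mono S hh.2)))
  have hf2 : ∀ᶠ h : ℝ in 𝓝[>] 0, IsFiniteMeasure (τ h) := by
    filter_upwards [hf1] with h hh
    exact ⟨by rw [hτu]; exact ENNReal.mul_lt_top ENNReal.ofReal_lt_top hh.lt_top⟩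
  have hS' : MeasurableSet (Ψ ⁻¹' S) := measurable_Psi Ψ hS
  have hε : 0 < (I - a) / (a + 2) := div_pos (by linarith) (by linarith)
  have key := field_le hf2 (pl g Ψ) (S := Ψ ⁻¹' S) 3 (fun c hc x₀ => ?_) hX hε
  · filter_upwards [key, self_mem_nhdsWithin] with h h1 h2
    have h0 : 0 < h := h2
    rw [measureReal_def, hτu, ENNReal.toReal_mul, ENNReal.toReal_ofReal (inv_pos.2 h0).le,
      ← hIdef] at h1
    have h3 : (I - a) / (a + 2) * (a + 2) = I - a := div_mul_cancel₀ _ (by linarith)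
    have h4 : a < h⁻¹ * (rmeas g n (nb g S h \ S)).toReal := by
      by_contra h5
      push Not at h5
      nlinarith
    rwa [lt_inv_mul_iff₀ h0, mul_comm] at h4
  obtain ⟨W, hW, hx₀, L, h1, h2, h3⟩ := local_lin hN Ψ x₀ hc
  have c1 : (1 : ℝ) < c := hc
  have ρ0 := volDensity_pos (pl g Ψ) x₀
  set ρ := volDensity (pl g Ψ) x₀ with hρ
  have hW' : IsOpen (W ∩ {x | ρ < c * volDensity (pl g Ψ) x}) :=
    hW.inter (isOpen_lt continuous_const (continuous_const.mul (volDensity_cont _)))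
  refine ⟨_, hW'.mem_nhds ⟨hx₀, show ρ < c * ρ by nlinarith⟩, L, h2,
    fun e w w1 w2 w3 w4 ε hε => ?_⟩
  obtain ⟨δ, hδ, hδW⟩ := w2.isCompact.exists_cthickening_subset_open hW' w4
  have c2 : 0 < (c : ℝ) - 1 := by linarith
  set D : ℝ := c * c * (‖L e‖ + ρ * (c - 1)) with hD
  have D0 : 0 < D := by positivity
  have t1 : Tendsto (fun h : ℝ => h / D) (𝓝[>] 0) (𝓝[>] 0) := by
    refine tendsto_nhdsWithin_iff.2 ⟨?_, ?_⟩
    · have : Continuous fun h : ℝ => h / D := by fun_prop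
      simpa using (this.tendsto 0).mono_left nhdsWithin_le_nhds
    · filter_upwards [self_mem_nhdsWithin] with h hh
      exact div_pos hh D0
  have t2 : Tendsto (fun h : ℝ => h / D * ‖e‖) (𝓝[>] 0) (𝓝 0) := by
    have : Continuous fun h : ℝ => h / D * ‖e‖ := by fun_prop
    simpa using (this.tendsto 0).mono_left nhdsWithin_le_nhds
  filter_upwards [t1.eventually (dir_le hS' w1 w2 w3 e hε), t2.eventually (gt_mem_nhds hδ),
    hf1, self_mem_nhdsWithin] with h k1 k2 k3 k4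
  have h0 : 0 < h := k4
  refine k1.trans (add_le_add_left ?_ _)
  haveI : IsFiniteMeasure (ν.restrict (Ψ ⁻¹' (nb g S h \ S))) :=
    ⟨by rw [Measure.restrict_apply MeasurableSet.univ, univ_inter, hν1]; exact k3.lt_top⟩
  have i1 : Integrable w (ν.restrict (Ψ ⁻¹' (nb g S h \ S))) :=
    w1.continuous.integrable_of_hasCompactSupport w2
  have gm := gain_meas hS' ((h / D) • e)
  have tm : MeasurableSet (tsupport w) := (isClosed_tsupport w).measurableSet
  have a1 : ∫ x in gain (Ψ ⁻¹' S) ((h / D) • e), w x =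
      ∫ x in gain (Ψ ⁻¹' S) ((h / D) • e) ∩ tsupport w, w x :=
    setIntegral_eq_of_subset_of_forall_diff_eq_zero gm inter_subset_left fun x hx =>
      image_eq_zero_of_notMem_tsupport fun hx' => hx.2 ⟨hx.1, hx'⟩
  have a2 : gain (Ψ ⁻¹' S) ((h / D) • e) ∩ tsupport w ⊆ Ψ ⁻¹' (nb g S h \ S) := by
    rintro x ⟨hx1, hx2⟩
    refine ⟨⟨Ψ (x - (h / D) • e), hx1.1, ?_⟩, hx1.2⟩
    have b1 : x - (h / D) • e ∈ W := by
      refine (hδW (mem_cthickening_of_dist_le _ x δ _ hx2 ?_)).1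
      rw [dist_eq_norm, sub_sub_cancel_left, norm_neg, norm_smul,
        Real.norm_of_nonneg (div_pos h0 D0).le]
      exact k2.le
    refine (h3 _ b1 x (w4 hx2).1).2.trans_lt ?_
    rw [edist_dist, dist_eq_norm, ← map_sub, sub_sub_cancel_left, map_neg, norm_neg, map_smul,
      norm_smul, Real.norm_of_nonneg (div_pos h0 D0).le, ← ENNReal.ofReal_coe_nnreal,
      ← ENNReal.ofReal_mul c.coe_nonneg, ← ENNReal.ofReal_mul c.coe_nonneg,
      ENNReal.ofReal_lt_ofReal_iff h0]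
    have b2 : h / D * D = h := div_mul_cancel₀ _ D0.ne'
    have b3 : 0 < h / D * (c * c * (ρ * (c - 1))) := by positivity
    rw [hD] at b2
    nlinarith
  have a3 : volume.restrict (gain (Ψ ⁻¹' S) ((h / D) • e) ∩ tsupport w) ≤
      ENNReal.ofReal (c / ρ) • ν.restrict (Ψ ⁻¹' (nb g S h \ S)) := by
    refine Measure.le_iff.2 fun s hs => ?_
    rw [Measure.restrict_apply hs, Measure.smul_apply, Measure.restrict_apply hs, smul_eq_mul]
    refine le_trans ?_ (mul_le_mul_right (measure_mono (inter_subset_inter_right s a2)) _)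
    rw [hν, withDensity_apply _ (hs.inter (gm.inter tm)),
      ← lintegral_const_mul' _ _ ENNReal.ofReal_ne_top, ← setLIntegral_one]
    refine setLIntegral_mono' (hs.inter (gm.inter tm)) fun x hx => ?_
    have b1 : ρ < c * volDensity (pl g Ψ) x := (w4 hx.2.2).2
    rw [← ENNReal.ofReal_mul (by positivity), ← ENNReal.ofReal_one]
    refine ENNReal.ofReal_le_ofReal ?_
    rw [div_mul_eq_mul_div, le_div_iff₀ ρ0]
    linarith
  have a4 := integral_mono_measure a3 (Eventually.of_forall w3)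
    (i1.smul_measure ENNReal.ofReal_ne_top)
  rw [integral_smul_measure, ENNReal.toReal_ofReal (by positivity), smul_eq_mul] at a4
  rw [a1, hτ]
  simp only
  rw [integral_smul_measure, ENNReal.toReal_ofReal (by positivity), smul_eq_mul]
  refine (mul_le_mul_of_nonneg_left a4 (by positivity)).trans (le_of_eq ?_)
  rw [hD]
  field_simp

end Vale.Agent.N219
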