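import Vale.Agent.P219.CoDefs
import Vale.Agent.P219W21.Abs

/-!
# P219: the volume swept by a set along a segment, and directional derivatives over a set
-/

set_option linter.all false

open MeasureTheory Set Filter Metric
open scoped ENNReal NNReal Topology RealInnerProductSpace

noncomputable section

namespace Vale.Agent.N219

open Vale.Agent.P219.Co (E)

variable {n : ℕ}

/-- the set swept by `A` along the segment from `0` to `h e` -/
def sw (A : Set (E n)) (e : E n) (h : ℝ) : Set (E n) :=
  {z | ∃ a ∈ A, ∃ t ∈ Icc (0 : ℝ) h, z = a + t • e}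

theorem sw_small {A : Set (E n)} {e : E n} (he : ‖e‖ = 1) {h η : ℝ}
    (hA : ∀ x ∈ A, ∀ y ∈ A, dist x y ≤ η) :
    volume (sw A e h) ≤ ENNReal.ofReal (h + 2 * η) * (μHE[n - 1] : Measure (E n)) A := by
  rcases A.eq_empty_or_nonempty with rfl | ⟨a₀, ha₀⟩
  · have : sw (∅ : Set (E n)) e h = ∅ := by
      ext z
      simp [sw]
    rw [this]
    simp
  have hee : ⟪e, e⟫ = 1 := by rw [real_inner_self_eq_norm_sq, he]; norm_num
  have he0 : e ≠ 0 := by
    rintro rfl
    simp at he
  set π : E n → E n := fun z => z - ⟪e, z⟫ • e with hπ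
  have hπc : Continuous π := by fun_prop
  have hlip : ∀ x y, edist (π x) (π y) ≤ ((1 : ℝ≥0) : ℝ≥0∞) * edist (id x) (id y) := by
    intro x y
    rw [ENNReal.coe_one, one_mul, edist_dist, edist_dist, dist_eq_norm, dist_eq_norm]
    refine ENNReal.ofReal_le_ofReal ?_
    have e1 : π x - π y = (x - y) - ⟪e, x - y⟫ • e := by
      simp only [hπ, inner_sub_right, sub_smul]
      abel
    rw [e1]
    simp only [id]
    refine (abs_le_of_sq_le_sq' ?_ (norm_nonneg (x - y))).2
    rw [norm_sub_sq_real, inner_smul_right, norm_smul, he, real_inner_comm]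
    simp only [Real.norm_eq_abs, mul_one, sq_abs]
    nlinarith [sq_nonneg ⟪e, x - y⟫]
  have h1 := Vale.Agent.P219W21.image_le (f := π) (h := id) (t := A) (K := 1)
    (fun x _ y _ => hlip x y) (n - 1)
  rw [ENNReal.coe_one, one_pow, one_mul, image_id] at h1
  set T := toMeasurable (μHE[n - 1] : Measure (E n)) (π '' A) with hT
  set I : Set ℝ := Icc (⟪e, a₀⟫ - η) (⟪e, a₀⟫ + h + η) with hI
  set t : Set (E n) := π ⁻¹' T ∩ (fun z => ⟪e, z⟫) ⁻¹' I with ht
  have htm : MeasurableSet t :=
    (hπc.measurable (measurableSet_toMeasurable _ _)).inter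
      ((show Continuous fun z : E n => ⟪e, z⟫ by fun_prop).measurable measurableSet_Icc)
  have hsub : sw A e h ⊆ t := by
    rintro _ ⟨a, ha, s, hs, rfl⟩
    have i1 : ⟪e, a + s • e⟫ = ⟪e, a⟫ + s := by
      rw [inner_add_right, inner_smul_right, hee, mul_one]
    refine ⟨subset_toMeasurable _ _ ⟨a, ha, ?_⟩, ?_⟩
    · simp only [hπ, i1, add_smul]
      abel
    · have i2 : |⟪e, a - a₀⟫| ≤ η := by
        refine (abs_real_inner_le_norm _ _).trans ?_
        rw [he, one_mul, ← dist_eq_norm]
        exact hA a ha a₀ ha₀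
      rw [inner_sub_right, abs_le] at i2
      simp only [mem_preimage, hI, mem_Icc, i1]
      constructor <;> linarith [hs.1, hs.2, i2.1, i2.2]
  have h2 := EuclideanGeometry.euclideanHausdorffMeasure_eq_lintegral (0 : E n) he0 htm
  rw [finrank_euclideanSpace_fin, EuclideanSpace.euclideanHausdorffMeasure_eq_volume,
    ← ofReal_norm, he, ENNReal.ofReal_one, one_mul] at h2
  refine (measure_mono hsub).trans (h2.le.trans ?_)
  have h3 : ∀ x : ℝ, (μHE[n - 1] : Measure (E n))
      (t ∩ AffineSubspace.mk' (x • e +ᵥ (0 : E n)) (ℝ ∙ e)ᗮ) ≤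
      I.indicator (fun _ => (μHE[n - 1] : Measure (E n)) A) x := by
    intro x
    have k : ∀ z ∈ (AffineSubspace.mk' (x • e +ᵥ (0 : E n)) (ℝ ∙ e)ᗮ : Set (E n)),
        ⟪e, z⟫ = x := by
      intro z hz
      rw [SetLike.mem_coe, AffineSubspace.mem_mk', Submodule.mem_orthogonal_singleton_iff_inner_right,
        vadd_eq_add, add_zero, vsub_eq_sub, inner_sub_right, inner_smul_right, hee] at hz
      linarith
    by_cases hx : x ∈ I
    · rw [indicator_of_mem hx]
      have k2 : t ∩ AffineSubspace.mk' (x • e +ᵥ (0 : E n)) (ℝ ∙ e)ᗮ ⊆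
          (fun w => w + x • e) '' T := by
        rintro z ⟨hz1, hz2⟩
        refine ⟨π z, hz1.1, ?_⟩
        simp only [hπ, k z hz2, sub_add_cancel]
      refine (measure_mono k2).trans ?_
      rw [(isometry_add_right (x • e)).euclideanHausdorffMeasure_image, hT, measure_toMeasurable]
      exact h1
    · have k2 : t ∩ AffineSubspace.mk' (x • e +ᵥ (0 : E n)) (ℝ ∙ e)ᗮ = ∅ := by
        refine eq_empty_of_forall_notMem fun z hz => hx ?_
        rw [← k z hz.2]
        exact hz.1.2
      rw [k2, measure_empty]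
      exact zero_le
  refine (lintegral_mono h3).trans ?_
  rw [lintegral_indicator_const measurableSet_Icc, Real.volume_Icc, mul_comm]
  refine le_of_eq ?_
  congr 2
  ring

theorem sw_unit (A : Set (E n)) {e : E n} (he : ‖e‖ = 1) (h : ℝ) {η : ℝ} (hη : 0 < η) :
    volume (sw A e h) ≤ ENNReal.ofReal (h + η) * (μHE[n - 1] : Measure (E n)) A := by
  obtain ⟨As, m1, m2, m3, m4, m5⟩ :=
    SeparableSpace.exists_measurable_partition_diam_le (E n) (half_pos hη)
  have hsub : sw A e h ⊆ ⋃ i, sw (As i ∩ A) e h := by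
    rintro _ ⟨a, ha, s, hs, rfl⟩
    obtain ⟨i, hi⟩ := mem_iUnion.1 (m4.symm ▸ mem_univ a)
    exact mem_iUnion.2 ⟨i, a, ⟨hi, ha⟩, s, hs, rfl⟩
  refine (measure_mono hsub).trans ((measure_iUnion_le _).trans ?_)
  have h1 : ∀ i, volume (sw (As i ∩ A) e h) ≤
      ENNReal.ofReal (h + η) * ((μHE[n - 1] : Measure (E n)).restrict A) (As i) := by
    intro i
    rw [Measure.restrict_apply (m1 i)]
    have := sw_small (A := As i ∩ A) he (h := h) (η := η / 2)
      fun x hx y hy => (dist_le_diam_of_mem (m2 i) hx.1 hy.1).trans (m3 i)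
    rwa [show h + 2 * (η / 2) = h + η by ring] at this
  refine (ENNReal.tsum_le_tsum h1).trans ?_
  rw [ENNReal.tsum_mul_left, ← measure_iUnion m5 m1, m4, Measure.restrict_apply MeasurableSet.univ,
    univ_inter]

theorem sw_le (hn : 1 ≤ n) (A : Set (E n)) (e : E n) {h η : ℝ} (hh : 0 ≤ h) (hη : 0 < η) :
    volume (sw A e h) ≤ ENNReal.ofReal (h * ‖e‖ + η) * (μHE[n - 1] : Measure (E n)) A := by
  obtain ⟨u, hu, hue⟩ : ∃ u : E n, ‖u‖ = 1 ∧ e = ‖e‖ • u := by
    by_cases h0 : e = 0
    · refine ⟨EuclideanSpace.single ⟨0, hn⟩ 1, by simp, by simp [h0]⟩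
    · have h1 : ‖e‖ ≠ 0 := norm_ne_zero_iff.2 h0
      refine ⟨‖e‖⁻¹ • e, ?_, ?_⟩
      · rw [norm_smul, norm_inv, norm_norm, inv_mul_cancel₀ h1]
      · rw [smul_smul, mul_inv_cancel₀ h1, one_smul]
  refine (measure_mono ?_).trans (sw_unit A hu (h * ‖e‖) hη)
  rintro _ ⟨a, ha, s, hs, rfl⟩
  refine ⟨a, ha, s * ‖e‖, ⟨mul_nonneg hs.1 (norm_nonneg _),
    mul_le_mul_of_nonneg_right hs.2 (norm_nonneg _)⟩, ?_⟩
  rw [← smul_smul, ← hue]

/-- the integral over `S` of the derivative of `w` in the direction `e` -/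
def dir (S : Set (E n)) (w : E n → ℝ) (e : E n) : ℝ := ∫ x in S, fderiv ℝ w x e

/-- the points which are added to `S` by the translation by `v` -/
def gain (S : Set (E n)) (v : E n) : Set (E n) := {x | x - v ∈ S ∧ x ∉ S}

theorem gain_meas {S : Set (E n)} (hS : MeasurableSet S) (v : E n) : MeasurableSet (gain S v) :=
  ((measurable_id.sub_const v) hS).inter hS.compl

theorem dir_tendsto {S : Set (E n)} (hS : MeasurableSet S) {w : E n → ℝ} (hw : ContDiff ℝ 1 w)
    (hc : HasCompactSupport w) (e : E n) :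
    Tendsto (fun t : ℝ => ∫ x in S, t⁻¹ • (w (x + t • e) - w x)) (𝓝[>] 0) (𝓝 (dir S w e)) := by
  obtain ⟨C, hf⟩ := hw.lipschitzWith_of_hasCompactSupport hc one_ne_zero
  let K := cthickening ‖e‖ (tsupport w)
  have K_compact : IsCompact K := IsCompact.cthickening hc
  apply tendsto_integral_filter_of_dominated_convergence (K.indicator (fun _ => C * ‖e‖))
  · filter_upwards with t
    have := hw.continuous
    exact (show Continuous fun x => t⁻¹ • (w (x + t • e) - w x) by fun_prop).aestronglyMeasurable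
  · filter_upwards [Ioc_mem_nhdsGT zero_lt_one] with t ht
    have t_pos : 0 < t := ht.1
    filter_upwards with x
    by_cases hx : x ∈ K
    · calc ‖t⁻¹ • (w (x + t • e) - w x)‖
        = t⁻¹ * ‖w (x + t • e) - w x‖ := by simp [norm_mul, t_pos.le]
      _ ≤ t⁻¹ * (C * ‖(x + t • e) - x‖) := by
        gcongr; exact LipschitzWith.norm_sub_le hf (x + t • e) x
      _ = C * ‖e‖ := by simp [field, norm_smul, abs_of_nonneg t_pos.le]
      _ = K.indicator (fun _ => C * ‖e‖) x := by rw [indicator_of_mem hx]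
    · have A : w x = 0 := by
        rw [← Function.notMem_support]
        contrapose hx
        exact self_subset_cthickening _ (subset_tsupport _ hx)
      have B : w (x + t • e) = 0 := by
        rw [← Function.notMem_support]
        contrapose hx
        apply mem_cthickening_of_dist_le _ _ ‖e‖ (tsupport w) (subset_tsupport _ hx)
        simp only [dist_eq_norm, sub_add_cancel_left, norm_neg, norm_smul, Real.norm_eq_abs,
          abs_of_nonneg t_pos.le]
        exact mul_le_of_le_one_left (norm_nonneg e) ht.2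
      simp only [B, A, _root_.sub_self, smul_eq_mul, mul_zero, norm_zero]
      exact indicator_nonneg (fun y _hy => by positivity) _
  · refine Integrable.integrableOn ?_
    rw [integrable_indicator_iff K_compact.measurableSet]
    exact ContinuousOn.integrableOn_compact K_compact (by fun_prop)
  · filter_upwards with x
    exact ((hw.differentiable one_ne_zero x).hasFDerivAt.hasLineDerivAt e).tendsto_slope_zero_right

theorem shift_le {S : Set (E n)} (hS : MeasurableSet S) {w : E n → ℝ} (hw : Continuous w)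
    (hc : HasCompactSupport w) (h0 : ∀ x, 0 ≤ w x) (v : E n) :
    ∫ x in S, (w (x + v) - w x) ≤ ∫ x in gain S v, w x := by
  have i1 : Integrable w := hw.integrable_of_hasCompactSupport hc
  have i2 : Integrable fun x => w (x + v) := i1.comp_add_right v
  have hS' : MeasurableSet {x : E n | x - v ∈ S} := (measurable_id.sub_const v) hS
  have e1 : ∫ x in S, w (x + v) = ∫ x in {x : E n | x - v ∈ S}, w x := by
    rw [← integral_indicator hS, ← integral_indicator hS',
      ← integral_add_right_eq_self (fun x => indicator {x : E n | x - v ∈ S} w x) v]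
    congr 1
    funext x
    by_cases hx : x ∈ S
    · rw [indicator_of_mem hx, indicator_of_mem (by simpa using hx)]
    · rw [indicator_of_notMem hx, indicator_of_notMem (by simpa using hx)]
  rw [integral_sub i2.integrableOn i1.integrableOn, e1, ← integral_indicator hS,
    ← integral_indicator hS', ← integral_indicator (gain_meas hS v),
    ← integral_sub (i1.indicator hS') (i1.indicator hS)]
  refine integral_mono ((i1.indicator hS').sub (i1.indicator hS))
    (i1.indicator (gain_meas hS v)) fun x => ?_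
  have := h0 x
  by_cases h1 : x - v ∈ S <;> by_cases h2 : x ∈ S <;>
    simp [indicator, gain, h1, h2, this]

theorem dir_le {S : Set (E n)} (hS : MeasurableSet S) {w : E n → ℝ} (hw : ContDiff ℝ 1 w)
    (hc : HasCompactSupport w) (h0 : ∀ x, 0 ≤ w x) (e : E n) {ε : ℝ} (hε : 0 < ε) :
    ∀ᶠ k : ℝ in 𝓝[>] 0, dir S w e ≤ k⁻¹ * (∫ x in gain S (k • e), w x) + ε := by
  have h1 := (dir_tendsto hS hw hc e).eventually (lt_mem_nhds (sub_lt_self _ hε))
  filter_upwards [h1, self_mem_nhdsWithin] with k hk hk0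
  have hk0' : 0 < k := hk0
  simp only [smul_eq_mul] at hk
  rw [integral_const_mul] at hk
  have h2 := mul_le_mul_of_nonneg_left (shift_le hS hw.continuous hc h0 (k • e))
    (inv_pos.2 hk0').le
  linarith

end Vale.Agent.N219
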